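import Vale.Agent.Lib.P230.ExistsGAux

/-!
# P230, module EXISTSG: final assembly
-/

open MeasureTheory ProbabilityTheory Set
open scoped ENNReal Pointwise

namespace Vale.P230

namespace ExistsGAux

theorem ell_lower {η a b T : ℝ} (hη : 0 < η) (hη1 : η ≤ 1) (hT : 0 < T)
    (hab : b - a = 1 / (2 * T)) (ha : -4 ≤ a) (hb : b ≤ 4) : 1 / (36000 * T) ≤ ell η a b := by
  have hab' : a < b := by
    have : 0 < 1 / (2 * T) := by positivity
    linarith
  have h1 : √(2 * Real.pi) ≤ 3 := by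
    rw [Real.sqrt_le_left (by norm_num)]
    nlinarith [Real.pi_lt_d2]
  have h2 : (6 : ℝ)⁻¹ ≤ ((1 + η) * √(2 * Real.pi))⁻¹ := by
    apply inv_anti₀ (by positivity)
    calc (1 + η) * √(2 * Real.pi) ≤ 2 * 3 := by
          gcongr
          linarith
      _ = 6 := by norm_num
  have h3 : (3000 : ℝ)⁻¹ ≤ Real.exp (-(max (a ^ 2) (b ^ 2)) / 2) := by
    have e1 : max (a ^ 2) (b ^ 2) ≤ 16 := by
      apply max_le
      · nlinarith
      · nlinarith
    calc (3000 : ℝ)⁻¹ ≤ (Real.exp 8)⁻¹ := by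
          apply inv_anti₀ (Real.exp_pos _)
          have e2 : Real.exp 8 = Real.exp 1 ^ 8 := by
            rw [← Real.exp_nat_mul]
            norm_num
          rw [e2]
          calc Real.exp 1 ^ 8 ≤ 2.7182818286 ^ 8 :=
                pow_le_pow_left₀ (Real.exp_pos _).le Real.exp_one_lt_d9.le 8
            _ ≤ 3000 := by norm_num
      _ = Real.exp (-8) := (Real.exp_neg 8).symm
      _ ≤ _ := by
          apply Real.exp_le_exp.2
          linarith
  unfold ell
  rw [hab]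
  calc 1 / (36000 * T) = 6⁻¹ * (1 / (2 * T)) * 3000⁻¹ := by
        field_simp
        norm_num
    _ ≤ _ := by gcongr

theorem pow_bound {T : ℕ} {L : ℝ} (hT : 0 < T) (hTL : (T : ℝ) ^ 2 ≤ L) :
    (36000 * (T : ℝ)) ^ (4 * T) ≤ Real.exp (12544 + L / 8) := by
  have hT0 : (0 : ℝ) < T := by exact_mod_cast hT
  have h1 : Real.log (36000 * T) ≤ T / 64 + 14 := by
    have e1 : (36000 * (T : ℝ)) = (T / 64) * 2304000 := by ring
    have e2 : Real.log 2304000 ≤ 15 := by
      rw [Real.log_le_iff_le_exp (by norm_num)]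
      have e3 : Real.exp 15 = Real.exp 1 ^ 15 := by
        rw [← Real.exp_nat_mul]
        norm_num
      rw [e3]
      calc (2304000 : ℝ) ≤ 2.7182818283 ^ 15 := by norm_num
        _ ≤ Real.exp 1 ^ 15 := pow_le_pow_left₀ (by norm_num) Real.exp_one_gt_d9.le 15
    rw [e1, Real.log_mul (by positivity) (by norm_num)]
    have e4 := Real.log_le_sub_one_of_pos (show (0 : ℝ) < T / 64 by positivity)
    linarith
  have h2 : (36000 * (T : ℝ)) ^ (4 * T) = Real.exp ((4 * T : ℕ) * Real.log (36000 * T)) := by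
    rw [Real.exp_nat_mul, Real.exp_log (by positivity)]
  rw [h2]
  apply Real.exp_le_exp.2
  push_cast
  calc 4 * (T : ℝ) * Real.log (36000 * T) ≤ 4 * T * (T / 64 + 14) := by gcongr
    _ ≤ 12544 + L / 8 := by nlinarith [sq_nonneg ((T : ℝ) / 4 - 112)]

theorem fail_bound {n T : ℕ} {cR V V1 r E : ℝ} (hcR : 0 < cR) (hV : 0 < V) (hT : 0 < T)
    (hTL : (T : ℝ) ^ 2 ≤ Real.log n) (hn : 0 < n)
    (hL : 8 * (12544 + Real.log (160 + 640000 / cR ^ 2)) < Real.log n)
    (hV1 : cR * V ≤ V1) (hr : √n / 20 ≤ r) (hE : (1 / (36000 * (T : ℝ))) ^ T ≤ E) :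
    (16 * (T : ℝ)) ^ T * (4 * (Real.exp (20 * Real.exp (-Real.log n / 4) * T) - 1) +
      4 * (n * V ^ 2 / (Real.exp (-Real.log n / 4) ^ 2 * r ^ 4)) / (E * V1) ^ 2) < 1 := by
  have hT1 : (1 : ℝ) ≤ T := by exact_mod_cast hT
  have hn0 : (0 : ℝ) < n := by exact_mod_cast hn
  set L := Real.log n with hLdef
  have hexpL : Real.exp L = n := Real.exp_log hn0
  set A := 160 + 640000 / cR ^ 2 with hA
  have hA1 : 160 ≤ A := by
    have : 0 ≤ 640000 / cR ^ 2 := by positivity
    linarith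
  have hAlog : 0 ≤ Real.log A := Real.log_nonneg (by linarith)
  set X := (36000 * (T : ℝ)) ^ T with hX
  have hX1 : 1 ≤ X := one_le_pow₀ (by linarith)
  have hX0 : 0 < X := by linarith
  have hX4 : X ^ 4 ≤ Real.exp (12544 + L / 8) := by
    rw [hX, ← pow_mul, mul_comm T 4]
    exact pow_bound hT hTL
  have h16 : (16 * (T : ℝ)) ^ T ≤ X := by
    apply pow_le_pow_left₀ (by positivity)
    linarith
  have hTX : (T : ℝ) ≤ X := by
    calc (T : ℝ) ≤ 36000 * (T : ℝ) := by linarith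
      _ = (36000 * (T : ℝ)) ^ 1 := (pow_one _).symm
      _ ≤ X := pow_le_pow_right₀ (by linarith) hT
  have hE' : X⁻¹ ≤ E := by
    rw [hX, ← inv_pow, inv_eq_one_div]
    exact hE
  have hE0 : 0 < E := lt_of_lt_of_le (by positivity) hE'
  -- the exponential term
  set ρ := Real.exp (-L / 4) with hρ
  have hρ0 : 0 < ρ := Real.exp_pos _
  have hL8 : 12544 + Real.log A < L / 8 := by linarith
  have hexp8 : (160 : ℝ) ≤ Real.exp (L / 8) := by
    have := Real.add_one_le_exp (L / 8)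
    linarith
  have h20 : 20 * ρ * T ≤ 1 := by
    have e1 : (T : ℝ) ≤ L := by nlinarith
    have e2 : L / 8 ≤ Real.exp (L / 8) := by
      have := Real.add_one_le_exp (L / 8)
      linarith
    have e3 : ρ * (Real.exp (L / 8) * Real.exp (L / 8)) = 1 := by
      rw [hρ, ← Real.exp_add, ← Real.exp_add]
      rw [show -L / 4 + (L / 8 + L / 8) = 0 by ring, Real.exp_zero]
    calc 20 * ρ * T ≤ 20 * ρ * L := by gcongr
      _ = ρ * (160 * (L / 8)) := by ring
      _ ≤ ρ * (Real.exp (L / 8) * Real.exp (L / 8)) := by gcongr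
      _ = 1 := e3
  have hexp1 : Real.exp (20 * ρ * T) - 1 ≤ 40 * ρ * T := by
    have e0 : 0 ≤ 20 * ρ * T := by positivity
    have e1 := Real.abs_exp_sub_one_le (x := 20 * ρ * T) (by rw [abs_of_nonneg e0]; exact h20)
    rw [abs_of_nonneg e0] at e1
    have := (abs_le.1 e1).2
    linarith
  -- the bad pairs term
  have hr0 : 0 < r := lt_of_lt_of_le (by positivity) hr
  have hr4 : (n : ℝ) ^ 2 / 160000 ≤ r ^ 4 := by
    calc (n : ℝ) ^ 2 / 160000 = (√n / 20) ^ 4 := by
          rw [div_pow, show (√(n : ℝ)) ^ 4 = (√(n : ℝ) ^ 2) ^ 2 by ring, Real.sq_sqrt hn0.le]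
          norm_num
      _ ≤ r ^ 4 := pow_le_pow_left₀ (by positivity) hr 4
  have hρ2 : ρ ^ 2 * n = Real.exp (L / 2) := by
    rw [← hexpL, hρ, ← Real.exp_nat_mul, ← Real.exp_add]
    congr 1
    push_cast
    ring
  have hbad : 4 * (n * V ^ 2 / (ρ ^ 2 * r ^ 4)) / (E * V1) ^ 2 ≤
      640000 / cR ^ 2 * X ^ 2 * Real.exp (-L / 2) := by
    have e1 : n * V ^ 2 / (ρ ^ 2 * r ^ 4) ≤ 160000 * V ^ 2 * Real.exp (-L / 2) := by
      rw [div_le_iff₀ (by positivity)]
      calc (n : ℝ) * V ^ 2 = 160000 * V ^ 2 * Real.exp (-L / 2) * (ρ ^ 2 * n) * (n / 160000) := by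
            rw [hρ2]
            have : Real.exp (-L / 2) * Real.exp (L / 2) = 1 := by
              rw [← Real.exp_add, show -L / 2 + L / 2 = 0 by ring, Real.exp_zero]
            linear_combination (-(n : ℝ) * V ^ 2) * this
        _ = 160000 * V ^ 2 * Real.exp (-L / 2) * (ρ ^ 2 * (n ^ 2 / 160000)) := by ring
        _ ≤ _ := by gcongr
    have e2 : X⁻¹ * (cR * V) ≤ E * V1 := by gcongr
    calc 4 * (n * V ^ 2 / (ρ ^ 2 * r ^ 4)) / (E * V1) ^ 2
        ≤ 4 * (160000 * V ^ 2 * Real.exp (-L / 2)) / (X⁻¹ * (cR * V)) ^ 2 := by gcongr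
      _ = _ := by
        field_simp
        norm_num
  have hexp24 : Real.exp (-L / 2) ≤ ρ := by
    apply Real.exp_le_exp.2
    linarith
  have hX3 : X ^ 3 ≤ X ^ 4 := pow_le_pow_right₀ hX1 (by norm_num)
  have hX23 : X ^ 2 ≤ X ^ 3 := pow_le_pow_right₀ hX1 (by norm_num)
  calc _ ≤ X * (4 * (40 * ρ * X) + 640000 / cR ^ 2 * X ^ 2 * ρ) := by
        gcongr
        · have e1 : 0 ≤ Real.exp (20 * ρ * T) - 1 := by
            have := Real.add_one_le_exp (20 * ρ * T)
            have : 0 ≤ 20 * ρ * T := by positivity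
            linarith
          positivity
        · exact hexp1.trans (by gcongr)
        · exact hbad.trans (by gcongr)
    _ = ρ * (160 * X ^ 2 + 640000 / cR ^ 2 * X ^ 3) := by ring
    _ ≤ ρ * (160 * X ^ 4 + 640000 / cR ^ 2 * X ^ 4) := by
        apply mul_le_mul_of_nonneg_left _ hρ0.le
        apply add_le_add
        · exact mul_le_mul_of_nonneg_left (hX23.trans hX3) (by norm_num)
        · exact mul_le_mul_of_nonneg_left hX3 (by positivity)
    _ = A * ρ * X ^ 4 := by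
        rw [hA]
        ring
    _ ≤ A * ρ * Real.exp (12544 + L / 8) := by gcongr
    _ = Real.exp (Real.log A + (12544 - L / 8)) := by
        rw [show Real.log A + (12544 - L / 8) = Real.log A + (-L / 4 + (12544 + L / 8)) by ring,
          Real.exp_add (Real.log A), Real.exp_log (by linarith), Real.exp_add (-L / 4), hρ]
        ring
    _ < 1 := by
        rw [Real.exp_lt_one_iff]
        linarith

end ExistsGAux

open ExistsGAux in
/-- MODULE ExistsG (file ExistsG.lean) : second moment method. -/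
theorem exists_G (η : ℝ) (hη : 0 < η) (hη1 : η ≤ 1) : ∃ c : ℝ, 0 < c ∧ ∃ n₀ : ℕ, ∀ (n T : ℕ),
    n₀ ≤ n → 0 < T → (T : ℝ) ^ 2 ≤ Real.log n → ∀ (K : Set (Fin n → ℝ)),
    Convex ℝ K → IsCompact K → 0 < volume K →
    (∀ i j, ∫ x in K, x i * x j = if i = j then (volume K).toReal else 0) →
    ∃ G : (Fin n → ℝ) →ₗ[ℝ] (Fin T → ℝ), ∀ k : Fin T → ℤ, (∀ i, -(8 * (T : ℤ)) ≤ k i ∧ k i < 8 * T) →
      c * (((1 + η) * √(2 * Real.pi))⁻¹) ^ T * (1 / (2 * (T : ℝ))) ^ T *
        Real.exp (-(∑ i, max (((k i : ℝ) / (2 * T)) ^ 2) ((((k i : ℝ) + 1) / (2 * T)) ^ 2)) / 2)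
        * (volume K).toReal ≤
      (volume {x | x ∈ K ∧ ∀ i, (k i : ℝ) / (2 * T) ≤ G x i ∧ G x i ≤ ((k i : ℝ) + 1) / (2 * T)}).toReal := by
  obtain ⟨cR, hcR, hrad⟩ := radial η hη
  refine ⟨cR / 2, by positivity, ⌈Real.exp (8 * (12544 + Real.log (160 + 640000 / cR ^ 2)) + 1)⌉₊,
    ?_⟩
  intro n T hn hT hTL K hconv hK hvol hiso
  set M := 8 * (12544 + Real.log (160 + 640000 / cR ^ 2)) with hM
  have hA1 : 160 ≤ 160 + 640000 / cR ^ 2 := by
    have : 0 ≤ 640000 / cR ^ 2 := by positivity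
    linarith
  have hAlog : 0 ≤ Real.log (160 + 640000 / cR ^ 2) := Real.log_nonneg (by linarith)
  have hnexp : Real.exp (M + 1) ≤ n := (Nat.le_ceil _).trans (by exact_mod_cast hn)
  have hn0 : (0 : ℝ) < n := lt_of_lt_of_le (Real.exp_pos _) hnexp
  have hn0' : 0 < n := by exact_mod_cast hn0
  have hL : M < Real.log n := by
    have : M + 1 ≤ Real.log n := by
      rw [Real.le_log_iff_exp_le hn0]
      exact hnexp
    linarith
  have hT0 : (0 : ℝ) < T := by exact_mod_cast hT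
  have hKt : volume K < ∞ := hK.measure_lt_top
  have hV : 0 < (volume K).toReal := ENNReal.toReal_pos hvol.ne' hKt.ne
  have hint : ∫ x in K, x ⬝ᵥ x = n * (volume K).toReal := by
    unfold dotProduct
    rw [integral_finsetSum _ (fun i _ => ?_)]
    · simp_rw [hiso]
      simp
    · exact (Continuous.continuousOn (by fun_prop)).integrableOn_compact hK
  obtain ⟨r, hr, hrv⟩ := hrad n K hn0' hconv hK hvol hint
  set K₁ : Set (Fin n → ℝ) := {x | x ∈ K ∧ r ^ 2 ≤ x ⬝ᵥ x ∧ x ⬝ᵥ x ≤ ((1 + η) * r) ^ 2} with hK₁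
  have hdd : Measurable (fun x : Fin n → ℝ => x ⬝ᵥ x) := by
    unfold dotProduct
    fun_prop
  have hK₁m : MeasurableSet K₁ :=
    hK.measurableSet.inter ((measurableSet_le measurable_const hdd).inter
      (measurableSet_le hdd measurable_const))
  have hK₁K : K₁ ⊆ K := fun x hx => hx.1
  have hr0 : 0 < r := lt_of_lt_of_le (by positivity) hr
  have hv1 : 0 < (volume K₁).toReal := lt_of_lt_of_le (by positivity) hrv
  set ρ := Real.exp (-Real.log n / 4) with hρ
  have hρ0 : 0 < ρ := Real.exp_pos _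
  have hρ2 : ρ ≤ 1 / 2 := by
    have e1 : ρ ≤ Real.exp (-1) := by
      apply Real.exp_le_exp.2
      linarith
    have e2 : Real.exp (-1) ≤ 1 / 2 := by
      rw [Real.exp_neg, one_div]
      apply inv_anti₀ (by norm_num)
      have := Real.exp_one_gt_d9
      linarith
    linarith
  -- box parameters
  set a : (Fin T → ℤ) → Fin T → ℝ := fun k i => (k i : ℝ) / (2 * T) with ha
  set b : (Fin T → ℤ) → Fin T → ℝ := fun k i => ((k i : ℝ) + 1) / (2 * T) with hb
  set S : Finset (Fin T → ℤ) := Fintype.piFinset (fun _ => Finset.Ico (-(8 * (T : ℤ))) (8 * T))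
    with hS
  have hSk : ∀ k ∈ S, ∀ i, -(8 * (T : ℤ)) ≤ k i ∧ k i < 8 * T := by
    intro k hk i
    rw [hS, Fintype.mem_piFinset] at hk
    exact Finset.mem_Ico.1 (hk i)
  have hdiff : ∀ k i, b k i - a k i = 1 / (2 * (T : ℝ)) := by
    intro k i
    simp only [ha, hb]
    ring
  have hab : ∀ k i, a k i < b k i := by
    intro k i
    have h1 := hdiff k i
    have : 0 < 1 / (2 * (T : ℝ)) := by positivity
    linarith
  have hale : ∀ k ∈ S, ∀ i, -4 ≤ a k i := by
    intro k hk i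
    have h1 : (-(8 * (T : ℝ))) ≤ k i := by exact_mod_cast (hSk k hk i).1
    simp only [ha]
    rw [le_div_iff₀ (by positivity)]
    linarith
  have hble : ∀ k ∈ S, ∀ i, b k i ≤ 4 := by
    intro k hk i
    have h0 : k i + 1 ≤ 8 * (T : ℤ) := (hSk k hk i).2
    have h1 : (k i : ℝ) + 1 ≤ 8 * T := by exact_mod_cast h0
    simp only [hb]
    rw [div_le_iff₀ (by positivity)]
    linarith
  have hE : ∀ k ∈ S, (1 / (36000 * (T : ℝ))) ^ T ≤ ∏ i, ell η (a k i) (b k i) := by
    intro k hk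
    calc (1 / (36000 * (T : ℝ))) ^ T = ∏ _i : Fin T, (1 / (36000 * (T : ℝ))) := by
          rw [Finset.prod_const, Finset.card_univ, Fintype.card_fin]
      _ ≤ _ := by
          apply Finset.prod_le_prod
          · intro i _
            positivity
          · intro i _
            exact ell_lower hη hη1 hT0 (hdiff k i) (hale k hk i) (hble k hk i)
  set bad : (Fin T → ℤ) → Set (Fin T → Fin n → ℝ) := fun k =>
    {g | (Zf K₁ r (a k) (b k) g).toReal <
      ((∏ i, ell η (a k i) (b k i)) * (volume K₁).toReal) / 2} with hbad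
  have hbadP : ∀ k ∈ S, PP n T (bad k) ≤ ENNReal.ofReal
      (4 * (Real.exp (20 * ρ * T) - 1) +
        4 * (n * (volume K).toReal ^ 2 / (ρ ^ 2 * r ^ 4)) /
          ((1 / (36000 * (T : ℝ))) ^ T * (volume K₁).toReal) ^ 2) := by
    intro k hk
    refine (box_prob hK hK₁K hK₁m hv1 hiso hη hr0 hρ0 hρ2 (a k) (b k) (hab k) (hale k hk)
      (hble k hk) (fun x hx => hx.2.1) (fun x hx => hx.2.2)).trans ?_
    apply ENNReal.ofReal_le_ofReal
    have := hE k hk
    gcongr
  have hfail := fail_bound (n := n) (T := T) hcR hV hT hTL hn0' hL hrv hr le_rfl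
  have hcard : (S.card : ℝ) = (16 * (T : ℝ)) ^ T := by
    rw [hS, Fintype.card_piFinset]
    simp only [Int.card_Ico, Finset.prod_const, Finset.card_univ, Fintype.card_fin]
    have e1 : (8 * (T : ℤ) - -(8 * (T : ℤ))).toNat = 16 * T := by omega
    rw [e1]
    push_cast
    ring
  have hunion : PP n T (⋃ k ∈ S, bad k) < 1 := by
    calc PP n T (⋃ k ∈ S, bad k) ≤ ∑ k ∈ S, PP n T (bad k) := measure_biUnion_finset_le _ _
      _ ≤ ∑ _k ∈ S, ENNReal.ofReal
          (4 * (Real.exp (20 * ρ * T) - 1) +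
            4 * (n * (volume K).toReal ^ 2 / (ρ ^ 2 * r ^ 4)) /
              ((1 / (36000 * (T : ℝ))) ^ T * (volume K₁).toReal) ^ 2) :=
          Finset.sum_le_sum hbadP
      _ = ENNReal.ofReal ((16 * (T : ℝ)) ^ T * (4 * (Real.exp (20 * ρ * T) - 1) +
            4 * (n * (volume K).toReal ^ 2 / (ρ ^ 2 * r ^ 4)) /
              ((1 / (36000 * (T : ℝ))) ^ T * (volume K₁).toReal) ^ 2)) := by
          rw [Finset.sum_const, nsmul_eq_mul, ENNReal.ofReal_mul (by positivity), ← hcard,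
            ENNReal.ofReal_natCast]
      _ < 1 := by
          rw [ENNReal.ofReal_lt_one]
          exact hfail
  obtain ⟨g, hg⟩ : ∃ g, g ∉ ⋃ k ∈ S, bad k := by
    by_contra hcon
    push Not at hcon
    have : (⋃ k ∈ S, bad k) = Set.univ := Set.eq_univ_of_forall hcon
    rw [this, measure_univ] at hunion
    exact lt_irrefl _ hunion
  refine ⟨r⁻¹ • (Matrix.of g).mulVecLin, ?_⟩
  intro k hk
  have hkS : k ∈ S := by
    rw [hS, Fintype.mem_piFinset]
    intro i
    exact Finset.mem_Ico.2 (hk i)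
  have hgk : g ∉ bad k := by
    intro h
    apply hg
    simp only [mem_iUnion]
    exact ⟨k, hkS, h⟩
  have hgk' : ((∏ i, ell η (a k i) (b k i)) * (volume K₁).toReal) / 2 ≤
      (Zf K₁ r (a k) (b k) g).toReal := by
    rw [hbad] at hgk
    simpa using hgk
  have hGx : ∀ (x : Fin n → ℝ) (i : Fin T),
      (r⁻¹ • (Matrix.of g).mulVecLin) x i = r⁻¹ * (g i ⬝ᵥ x) := by
    intro x i
    rfl
  have hZsub : {x | (g, x) ∈ W K₁ r (a k) (b k)} ⊆
      {x | x ∈ K ∧ ∀ i, (k i : ℝ) / (2 * T) ≤ (r⁻¹ • (Matrix.of g).mulVecLin) x i ∧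
        (r⁻¹ • (Matrix.of g).mulVecLin) x i ≤ ((k i : ℝ) + 1) / (2 * T)} := by
    rintro x ⟨hx1, hx2⟩
    refine ⟨hx1.1, ?_⟩
    intro i
    rw [hGx]
    have e1 := (hx2 i).1
    have e2 := (hx2 i).2
    simp only [ha, hb] at e1 e2
    constructor
    · rw [inv_mul_eq_div, le_div_iff₀ hr0]
      exact e1
    · rw [inv_mul_eq_div, div_le_iff₀ hr0]
      exact e2
  have hprod : ∏ i, ell η (a k i) (b k i) = (((1 + η) * √(2 * Real.pi))⁻¹) ^ T *
      (1 / (2 * (T : ℝ))) ^ T *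
        Real.exp (-(∑ i, max (((k i : ℝ) / (2 * T)) ^ 2) ((((k i : ℝ) + 1) / (2 * T)) ^ 2)) / 2) := by
    unfold ell
    simp_rw [hdiff]
    rw [Finset.prod_mul_distrib, Finset.prod_const, Finset.card_univ, Fintype.card_fin, mul_pow,
      ← Real.exp_sum]
    congr 2
    rw [← Finset.sum_div, Finset.sum_neg_distrib]
  have hfin : volume {x | x ∈ K ∧ ∀ i, (k i : ℝ) / (2 * T) ≤ (r⁻¹ • (Matrix.of g).mulVecLin) x i ∧
        (r⁻¹ • (Matrix.of g).mulVecLin) x i ≤ ((k i : ℝ) + 1) / (2 * T)} ≠ ∞ :=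
    (lt_of_le_of_lt (measure_mono fun x hx => hx.1) hKt).ne
  have hell0 : 0 ≤ ∏ i, ell η (a k i) (b k i) :=
    Finset.prod_nonneg fun i _ => ell_nonneg hη (hab k i)
  calc _ = (∏ i, ell η (a k i) (b k i)) * (cR * (volume K).toReal) / 2 := by
        rw [hprod]
        ring
    _ ≤ (∏ i, ell η (a k i) (b k i)) * (volume K₁).toReal / 2 := by gcongr
    _ ≤ (Zf K₁ r (a k) (b k) g).toReal := hgk'
    _ ≤ _ := ENNReal.toReal_mono hfin (measure_mono hZsub)

end Vale.P230
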