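import Vale.Agent.Lib.P230.Defs
import Vale.Agent.Lib.P226.PL

/-!
# P230, module Radial

`μ` = normalised volume on `K`, `E |x|² = n`, `s = √n/20`.
* If `μ(|x| > s) ≤ 1/10` then `E|x| ≤ (11/30) √n`, and Prekopa-Leindler applied to `1_{|x| ≤ s}`,
  `((|y| - s)₊/2)²`, `|z|` gives `E (|x|-s)₊² ≤ 0.6 n`, so `E|x|² < n`: contradiction.
* Markov: `μ(|x| > 4√n) ≤ 1/16`; pigeonhole in the bins of ratio `1 + η` of `[√n/20, 4√n]`.
-/

open MeasureTheory ProbabilityTheory Set
open scoped ENNReal Pointwise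

namespace Vale.P230

/-- Euclidean norm -/
noncomputable def radN {n : ℕ} (x : Fin n → ℝ) : ℝ := √(x ⬝ᵥ x)

lemma radN_eq {n : ℕ} (x : Fin n → ℝ) :
    radN x = ‖(WithLp.toLp 2 x : EuclideanSpace ℝ (Fin n))‖ := by
  rw [EuclideanSpace.norm_eq]
  unfold radN dotProduct
  congr 1
  refine Finset.sum_congr rfl fun i _ => ?_
  simp [sq]

lemma radN_nonneg {n : ℕ} (x : Fin n → ℝ) : 0 ≤ radN x := Real.sqrt_nonneg _

lemma rad_dot_nonneg {n : ℕ} (x : Fin n → ℝ) : 0 ≤ x ⬝ᵥ x :=
  Finset.sum_nonneg fun _ _ => mul_self_nonneg _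

lemma radN_sq {n : ℕ} (x : Fin n → ℝ) : radN x ^ 2 = x ⬝ᵥ x := Real.sq_sqrt (rad_dot_nonneg x)

lemma radN_cont {n : ℕ} : Continuous (radN : (Fin n → ℝ) → ℝ) := by
  unfold radN dotProduct
  fun_prop

lemma radN_half {n : ℕ} (x y : Fin n → ℝ) :
    (radN y - radN x) / 2 ≤ radN ((1 / 2 : ℝ) • (x + y)) := by
  rw [radN_eq, radN_eq, radN_eq, WithLp.toLp_smul, WithLp.toLp_add, norm_smul]
  have h := norm_sub_le (WithLp.toLp 2 x + WithLp.toLp 2 y : EuclideanSpace ℝ (Fin n))
    (WithLp.toLp 2 x)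
  rw [add_sub_cancel_left] at h
  have h2 : ‖(1 / 2 : ℝ)‖ = 1 / 2 := by norm_num
  rw [h2]
  linarith

/-- the Prekopa-Leindler step -/
lemma radial_PL {n : ℕ} (K : Set (Fin n → ℝ)) (hK : Convex ℝ K) (hc : IsCompact K) (s : ℝ) :
    (volume {x | x ∈ K ∧ radN x ≤ s}).toReal * ∫ x in K, (max (radN x - s) 0 / 2) ^ 2 ≤
      (∫ x in K, radN x) ^ 2 := by
  have hKm := hc.measurableSet
  have hA : MeasurableSet {x | x ∈ K ∧ radN x ≤ s} :=
    hKm.inter (measurableSet_le radN_cont.measurable measurable_const)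
  have hc1 : Continuous (fun x : Fin n → ℝ => (max (radN x - s) 0 / 2) ^ 2) := by
    have := radN_cont (n := n)
    fun_prop
  have key := Vale.P226.PL.prekopa_leindler n
    (f := {x | x ∈ K ∧ radN x ≤ s}.indicator (fun _ => (1 : ℝ≥0∞)))
    (g := K.indicator (fun y => ENNReal.ofReal ((max (radN y - s) 0 / 2) ^ 2)))
    (h := K.indicator (fun z => ENNReal.ofReal (radN z)))
    (measurable_const.indicator hA) (hc1.measurable.ennreal_ofReal.indicator hKm)
    (radN_cont.measurable.ennreal_ofReal.indicator hKm) (by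
      intro x y
      by_cases hx : x ∈ {x | x ∈ K ∧ radN x ≤ s}
      · by_cases hy : y ∈ K
        · have hxy : (1 / 2 : ℝ) • (x + y) ∈ K := by
            have := hK hx.1 hy (by norm_num : (0 : ℝ) ≤ 1 / 2) (by norm_num : (0 : ℝ) ≤ 1 / 2)
              (by norm_num)
            rwa [← smul_add] at this
          rw [Set.indicator_of_mem hx, Set.indicator_of_mem hy, Set.indicator_of_mem hxy, one_mul,
            ← ENNReal.ofReal_pow (radN_nonneg _)]
          refine ENNReal.ofReal_le_ofReal ?_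
          have h1 := radN_half x y
          have h2 := hx.2
          refine pow_le_pow_left₀ (by positivity) ?_ 2
          rcases le_total (radN y - s) 0 with h | h
          · rw [max_eq_right h, zero_div]; exact radN_nonneg _
          · rw [max_eq_left h]; linarith
        · rw [Set.indicator_of_notMem hy]; simp
      · rw [Set.indicator_of_notMem hx]; simp)
  rw [lintegral_indicator_const hA, lintegral_indicator hKm, lintegral_indicator hKm, one_mul,
    ← ofReal_integral_eq_lintegral_ofReal (hc1.continuousOn.integrableOn_compact hc)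
      (Filter.Eventually.of_forall fun x => by positivity),
    ← ofReal_integral_eq_lintegral_ofReal (radN_cont.continuousOn.integrableOn_compact hc)
      (Filter.Eventually.of_forall fun x => radN_nonneg x)] at key
  have hfin : (volume {x | x ∈ K ∧ radN x ≤ s}) ≠ ⊤ :=
    ((measure_mono (fun x hx => hx.1)).trans_lt hc.measure_lt_top).ne
  have h1 : 0 ≤ ∫ x in K, radN x := integral_nonneg fun x => radN_nonneg x
  have h2 : 0 ≤ ∫ x in K, (max (radN x - s) 0 / 2) ^ 2 := integral_nonneg fun x => by positivity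
  rw [← ENNReal.ofReal_toReal hfin, ← ENNReal.ofReal_mul ENNReal.toReal_nonneg,
    ← ENNReal.ofReal_pow h1] at key
  exact (ENNReal.ofReal_le_ofReal_iff (by positivity)).mp key

/-- a nontrivial part of the mass is outside the ball of radius `√n/20` -/
lemma radial_lower {n : ℕ} (K : Set (Fin n → ℝ)) (hn : 1 ≤ n) (hK : Convex ℝ K) (hc : IsCompact K)
    (hv : 0 < volume K) (hE : ∫ x in K, x ⬝ᵥ x = n * (volume K).toReal) :
    1 / 10 * (volume K).toReal < (volume {x | x ∈ K ∧ √n / 20 < radN x}).toReal := by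
  by_contra hcon
  rw [not_lt] at hcon
  set V := (volume K).toReal with hV
  have hVt : volume K ≠ ⊤ := hc.measure_lt_top.ne
  have hV0 : 0 < V := ENNReal.toReal_pos hv.ne' hVt
  have hn1 : (1 : ℝ) ≤ n := by exact_mod_cast hn
  set w := √(n : ℝ) with hw
  have hw0 : 0 < w := Real.sqrt_pos.mpr (by linarith)
  have hw2 : w ^ 2 = n := Real.sq_sqrt (by linarith)
  set s := w / 20 with hs
  have hKm := hc.measurableSet
  have hBm : MeasurableSet {x : Fin n → ℝ | s < radN x} :=
    measurableSet_lt measurable_const radN_cont.measurable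
  have hi0 : IntegrableOn (fun x : Fin n → ℝ => x ⬝ᵥ x) K := by
    have : Continuous (fun x : Fin n → ℝ => x ⬝ᵥ x) := by unfold dotProduct; fun_prop
    exact this.continuousOn.integrableOn_compact hc
  have hi1 : IntegrableOn (radN : (Fin n → ℝ) → ℝ) K :=
    radN_cont.continuousOn.integrableOn_compact hc
  have hfK : IsFiniteMeasure (volume.restrict K) := ⟨by
    rw [Measure.restrict_apply_univ]; exact hc.measure_lt_top⟩
  have hiB : Integrable ({x : Fin n → ℝ | s < radN x}.indicator (fun _ => (3 * w / 2 : ℝ)))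
      (volume.restrict K) := (integrable_const _).indicator hBm
  have hBint : ∫ x in K, {x : Fin n → ℝ | s < radN x}.indicator (fun _ => (3 * w / 2 : ℝ)) x =
      (3 * w / 2) * (volume {x | x ∈ K ∧ s < radN x}).toReal := by
    rw [integral_indicator_const _ hBm, smul_eq_mul, mul_comm, Measure.real,
      Measure.restrict_apply hBm]
    congr 3
    ext x
    simp [and_comm]
  -- first moment
  have hE1 : ∫ x in K, radN x ≤ 11 / 30 * w * V := by
    have h1 : ∫ x in K, radN x ≤ ∫ x in K, (s +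
        {x : Fin n → ℝ | s < radN x}.indicator (fun _ => (3 * w / 2 : ℝ)) x +
        1 / (6 * w) * (x ⬝ᵥ x)) := by
      refine integral_mono hi1 (((integrable_const _).add hiB).add (hi0.const_mul _)) fun x => ?_
      rw [← radN_sq]
      have h0 := radN_nonneg x
      by_cases hx : s < radN x
      · rw [Set.indicator_of_mem (show x ∈ {x : Fin n → ℝ | s < radN x} from hx)]
        have h3 : radN x ≤ 3 * w / 2 + 1 / (6 * w) * radN x ^ 2 := by
          have h4 : 3 * w / 2 + 1 / (6 * w) * radN x ^ 2 - radN x =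
              (radN x - 3 * w) ^ 2 / (6 * w) := by field_simp; ring
          have h5 : 0 ≤ (radN x - 3 * w) ^ 2 / (6 * w) := by positivity
          linarith
        have h6 : 0 ≤ s := by positivity
        linarith
      · rw [Set.indicator_of_notMem (show x ∉ {x : Fin n → ℝ | s < radN x} from hx)]
        have h5 : 0 ≤ 1 / (6 * w) * radN x ^ 2 := by positivity
        linarith [not_lt.mp hx]
    rw [integral_add (f := fun x => s +
        {x : Fin n → ℝ | s < radN x}.indicator (fun _ => (3 * w / 2 : ℝ)) x)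
        ((integrable_const _).add hiB) (hi0.const_mul _),
      integral_add (integrable_const _) hiB, integral_const_mul, hE, hBint,
      integral_const, smul_eq_mul, Measure.real, Measure.restrict_apply_univ, ← hV] at h1
    have h2 : 3 * w / 2 * (volume {x | x ∈ K ∧ s < radN x}).toReal ≤ 3 * w / 2 * (1 / 10 * V) := by
      gcongr
    have h3 : 1 / (6 * w) * (n * V) = w / 6 * V := by
      rw [← hw2]; field_simp
    rw [h3] at h1
    rw [hs] at h1
    linarith
  -- Prekopa-Leindler
  have hPL := radial_PL K hK hc s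
  have hAV : 9 / 10 * V ≤ (volume {x | x ∈ K ∧ radN x ≤ s}).toReal := by
    have h1 : volume K ≤ volume {x | x ∈ K ∧ radN x ≤ s} + volume {x | x ∈ K ∧ s < radN x} := by
      refine (measure_mono fun x hx => ?_).trans (measure_union_le _ _)
      rcases le_or_gt (radN x) s with h | h
      · exact Or.inl ⟨hx, h⟩
      · exact Or.inr ⟨hx, h⟩
    have f1 : (volume {x | x ∈ K ∧ radN x ≤ s}) ≠ ⊤ :=
      ((measure_mono (fun x hx => hx.1)).trans_lt hc.measure_lt_top).ne
    have f2 : (volume {x | x ∈ K ∧ s < radN x}) ≠ ⊤ :=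
      ((measure_mono (fun x hx => hx.1)).trans_lt hc.measure_lt_top).ne
    have h2 := ENNReal.toReal_mono (ENNReal.add_ne_top.mpr ⟨f1, f2⟩) h1
    rw [ENNReal.toReal_add f1 f2] at h2
    linarith
  have hi2 : IntegrableOn (fun x : Fin n → ℝ => (max (radN x - s) 0 / 2) ^ 2) K := by
    have : Continuous (fun x : Fin n → ℝ => (max (radN x - s) 0 / 2) ^ 2) := by
      have := radN_cont (n := n)
      fun_prop
    exact this.continuousOn.integrableOn_compact hc
  have hI0 : 0 ≤ ∫ x in K, (max (radN x - s) 0 / 2) ^ 2 := integral_nonneg fun x => by positivity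
  have hE10 : 0 ≤ ∫ x in K, radN x := integral_nonneg fun x => radN_nonneg x
  -- second moment
  have h2 : ∫ x in K, x ⬝ᵥ x ≤ ∫ x in K, (6 * s ^ 2 +
      24 / 5 * (max (radN x - s) 0 / 2) ^ 2) := by
    refine integral_mono hi0 ((integrable_const _).add (hi2.const_mul _)) fun x => ?_
    rw [← radN_sq]
    have h0 := radN_nonneg x
    have h3 : radN x ≤ s + max (radN x - s) 0 := by
      have := le_max_left (radN x - s) 0
      linarith
    have h4 : 0 ≤ max (radN x - s) 0 := le_max_right _ _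
    have h5 : radN x ^ 2 ≤ (s + max (radN x - s) 0) ^ 2 := pow_le_pow_left₀ h0 h3 2
    nlinarith [sq_nonneg (5 * s - max (radN x - s) 0)]
  rw [integral_add (integrable_const _) (hi2.const_mul _), integral_const_mul (24 / 5 : ℝ), hE,
    integral_const, smul_eq_mul, Measure.real, Measure.restrict_apply_univ, ← hV] at h2
  set I := ∫ x in K, (max (radN x - s) 0 / 2) ^ 2 with hI
  set a := ∫ x in K, radN x with ha
  have h3 : 9 / 10 * V * I ≤ (11 / 30 * w * V) ^ 2 :=
    (mul_le_mul_of_nonneg_right hAV hI0).trans (hPL.trans (pow_le_pow_left₀ hE10 hE1 2))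
  have h4 : 9 / 10 * I ≤ 121 / 900 * n * V := by
    have : V * (9 / 10 * I) ≤ V * (121 / 900 * n * V) := by
      rw [← hw2]; linarith
    exact le_of_mul_le_mul_left this hV0
  have h5 : s ^ 2 = n / 400 := by rw [hs, ← hw2]; ring
  rw [h5] at h2
  have h6 : 0 < (n : ℝ) * V := by positivity
  linarith

/-- Markov -/
lemma radial_upper {n : ℕ} (K : Set (Fin n → ℝ)) (hn : 1 ≤ n) (hc : IsCompact K)
    (hE : ∫ x in K, x ⬝ᵥ x = n * (volume K).toReal) :
    (volume {x | x ∈ K ∧ 4 * √n < radN x}).toReal ≤ 1 / 16 * (volume K).toReal := by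
  have hn1 : (1 : ℝ) ≤ n := by exact_mod_cast hn
  have hBm : MeasurableSet {x : Fin n → ℝ | 4 * √n < radN x} :=
    measurableSet_lt measurable_const radN_cont.measurable
  have hi0 : IntegrableOn (fun x : Fin n → ℝ => x ⬝ᵥ x) K := by
    have : Continuous (fun x : Fin n → ℝ => x ⬝ᵥ x) := by unfold dotProduct; fun_prop
    exact this.continuousOn.integrableOn_compact hc
  have hfK : IsFiniteMeasure (volume.restrict K) := ⟨by
    rw [Measure.restrict_apply_univ]; exact hc.measure_lt_top⟩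
  have hiB : Integrable ({x : Fin n → ℝ | 4 * √n < radN x}.indicator (fun _ => (16 * n : ℝ)))
      (volume.restrict K) := (integrable_const _).indicator hBm
  have hBint : ∫ x in K, {x : Fin n → ℝ | 4 * √n < radN x}.indicator (fun _ => (16 * n : ℝ)) x =
      (16 * n) * (volume {x | x ∈ K ∧ 4 * √n < radN x}).toReal := by
    rw [integral_indicator_const _ hBm, smul_eq_mul, mul_comm, Measure.real,
      Measure.restrict_apply hBm]
    congr 3
    ext x
    simp [and_comm]
  have h1 : ∫ x in K, {x : Fin n → ℝ | 4 * √n < radN x}.indicator (fun _ => (16 * n : ℝ)) x ≤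
      ∫ x in K, x ⬝ᵥ x := by
    refine integral_mono hiB hi0 fun x => ?_
    by_cases hx : 4 * √n < radN x
    · rw [Set.indicator_of_mem (show x ∈ {x : Fin n → ℝ | 4 * √n < radN x} from hx)]
      rw [← radN_sq]
      have h2 : (4 * √(n : ℝ)) ^ 2 = 16 * n := by
        rw [mul_pow, Real.sq_sqrt (by linarith)]; norm_num
      rw [← h2]
      exact pow_le_pow_left₀ (by positivity) hx.le 2
    · rw [Set.indicator_of_notMem (show x ∉ {x : Fin n → ℝ | 4 * √n < radN x} from hx)]
      exact rad_dot_nonneg x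
  rw [hBint, hE] at h1
  have h2 : (n : ℝ) * (16 * (volume {x | x ∈ K ∧ 4 * √n < radN x}).toReal) ≤
      n * (volume K).toReal := by linarith
  have h3 := le_of_mul_le_mul_left h2 (by linarith)
  linarith

/-- covering of `[r, θ^J r]` by the bins -/
lemma radial_bins {n : ℕ} (K : Set (Fin n → ℝ)) (hc : IsCompact K) (r θ : ℝ) (hθ : 1 < θ)
    (hr : 0 < r) (J : ℕ) :
    (volume {x | x ∈ K ∧ r < radN x ∧ radN x ≤ θ ^ J * r}).toReal ≤
      ∑ i ∈ Finset.range J, (volume {x | x ∈ K ∧ (θ ^ i * r) ^ 2 ≤ x ⬝ᵥ x ∧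
        x ⬝ᵥ x ≤ (θ * (θ ^ i * r)) ^ 2}).toReal := by
  induction J with
  | zero =>
    have : {x | x ∈ K ∧ r < radN x ∧ radN x ≤ θ ^ 0 * r} = ∅ := by
      ext x
      simp only [pow_zero, one_mul, mem_ofPred_eq, mem_empty_iff_false, iff_false, not_and, not_le]
      intro _ h
      exact h
    rw [this]; simp
  | succ J ih =>
    rw [Finset.sum_range_succ]
    refine le_trans ?_ (add_le_add ih le_rfl)
    have f1 : ∀ P : (Fin n → ℝ) → Prop, (volume {x | x ∈ K ∧ P x}) ≠ ⊤ := fun P =>
      ((measure_mono (fun x hx => hx.1)).trans_lt hc.measure_lt_top).ne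
    rw [← ENNReal.toReal_add (f1 _) (f1 _)]
    refine ENNReal.toReal_mono (ENNReal.add_ne_top.mpr ⟨f1 _, f1 _⟩) ?_
    refine (measure_mono ?_).trans (measure_union_le _ _)
    rintro x ⟨hx, h1, h2⟩
    rcases le_or_gt (radN x) (θ ^ J * r) with h | h
    · exact Or.inl ⟨hx, h1, h⟩
    · refine Or.inr ⟨hx, ?_, ?_⟩
      · rw [← radN_sq]
        exact pow_le_pow_left₀ (by positivity) h.le 2
      · rw [← radN_sq]
        refine pow_le_pow_left₀ (radN_nonneg x) ?_ 2
        rw [pow_succ] at h2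
        linarith

/-- MODULE Radial (file Radial.lean) -/
theorem radial (η : ℝ) (hη : 0 < η) : ∃ c : ℝ, 0 < c ∧ ∀ (n : ℕ) (K : Set (Fin n → ℝ)), 1 ≤ n →
    Convex ℝ K → IsCompact K → 0 < volume K →
    (∫ x in K, x ⬝ᵥ x = n * (volume K).toReal) →
    ∃ r : ℝ, √n / 20 ≤ r ∧ c * (volume K).toReal ≤
      (volume {x | x ∈ K ∧ r ^ 2 ≤ x ⬝ᵥ x ∧ x ⬝ᵥ x ≤ ((1 + η) * r) ^ 2}).toReal := by
  obtain ⟨J, hJ⟩ := pow_unbounded_of_one_lt (80 : ℝ) (by linarith : 1 < 1 + η)
  have hJ0 : 0 < J := by
    rcases Nat.eq_zero_or_pos J with h | h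
    · rw [h, pow_zero] at hJ; norm_num at hJ
    · exact h
  have hJR : (0 : ℝ) < J := by exact_mod_cast hJ0
  refine ⟨3 / 80 / J, by positivity, fun n K hn hK hc hv hE => ?_⟩
  have hn1 : (1 : ℝ) ≤ n := by exact_mod_cast hn
  have hw0 : 0 < √(n : ℝ) := Real.sqrt_pos.mpr (by linarith)
  set V := (volume K).toReal with hV
  have h1 := radial_lower K hn hK hc hv hE
  have h2 := radial_upper K hn hc hE
  have h3 := radial_bins K hc (√n / 20) (1 + η) (by linarith) (by positivity) J
  have f1 : ∀ P : (Fin n → ℝ) → Prop, (volume {x | x ∈ K ∧ P x}) ≠ ⊤ := fun P =>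
    ((measure_mono (fun x hx => hx.1)).trans_lt hc.measure_lt_top).ne
  have h4 : (volume {x | x ∈ K ∧ √n / 20 < radN x}).toReal ≤
      (volume {x | x ∈ K ∧ √n / 20 < radN x ∧ radN x ≤ (1 + η) ^ J * (√n / 20)}).toReal +
      (volume {x | x ∈ K ∧ 4 * √n < radN x}).toReal := by
    rw [← ENNReal.toReal_add (f1 _) (f1 _)]
    refine ENNReal.toReal_mono (ENNReal.add_ne_top.mpr ⟨f1 _, f1 _⟩) ?_
    refine (measure_mono ?_).trans (measure_union_le _ _)
    rintro x ⟨hx, h5⟩
    rcases le_or_gt (radN x) ((1 + η) ^ J * (√n / 20)) with h | h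
    · exact Or.inl ⟨hx, h5, h⟩
    · refine Or.inr ⟨hx, lt_of_le_of_lt ?_ h⟩
      nlinarith
  have h5 : 3 / 80 * V ≤ ∑ i ∈ Finset.range J, (volume {x | x ∈ K ∧
      ((1 + η) ^ i * (√n / 20)) ^ 2 ≤ x ⬝ᵥ x ∧
        x ⬝ᵥ x ≤ ((1 + η) * ((1 + η) ^ i * (√n / 20))) ^ 2}).toReal := by linarith
  have h6 : ∑ i ∈ Finset.range J, (3 / 80 / J * V) = 3 / 80 * V := by
    rw [Finset.sum_const, Finset.card_range, nsmul_eq_mul]
    field_simp
  rw [← h6] at h5
  obtain ⟨i, -, hi⟩ := Finset.exists_le_of_sum_le (Finset.nonempty_range_iff.mpr hJ0.ne') h5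
  refine ⟨(1 + η) ^ i * (√n / 20), ?_, hi⟩
  have : 1 ≤ (1 + η) ^ i := one_le_pow₀ (by linarith)
  nlinarith

end Vale.P230
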