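import Vale.Agent.Lib.P230.Defs
import Vale.Agent.Lib.P230.GaussPair
import Vale.Agent.Lib.P230.Radial

/-!
# P230, module EXISTSG: second moment method for Gaussian projections of an isotropic body
-/

open MeasureTheory ProbabilityTheory Set
open scoped ENNReal Pointwise

namespace Vale.P230

namespace ExistsGAux

theorem cheb {Ω : Type*} [MeasurableSpace Ω] (P : Measure Ω) [IsProbabilityMeasure P] (Z : Ω → ℝ)
    (hZ : Measurable Z) (B : ℝ) (hB : ∀ ω, |Z ω| ≤ B) (δ β m : ℝ) (hm : 0 < m)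
    (hβ : 0 ≤ β) (hm1 : m ≤ ∫ ω, Z ω ∂P)
    (h2 : ∫ ω, Z ω ^ 2 ∂P ≤ (1 + δ) * (∫ ω, Z ω ∂P) ^ 2 + β) :
    P {ω | Z ω < m / 2} ≤ ENNReal.ofReal (4 * δ + 4 * β / m ^ 2) := by
  have hmem : MemLp Z 2 P := MemLp.of_bound hZ.aestronglyMeasurable B
    (Filter.Eventually.of_forall hB)
  set e := ∫ ω, Z ω ∂P with he
  have he0 : 0 < e := lt_of_lt_of_le hm hm1
  have hsub : {ω | Z ω < m / 2} ⊆ {ω | e / 2 ≤ |Z ω - e|} := by
    intro ω hω
    simp only [mem_ofPred_eq] at hω ⊢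
    rw [abs_of_neg (by linarith)]
    linarith
  have h3 := meas_ge_le_variance_div_sq hmem (by linarith : 0 < e / 2)
  refine (measure_mono hsub).trans (h3.trans ?_)
  apply ENNReal.ofReal_le_ofReal
  rw [variance_eq_sub hmem]
  have h4 : (∫ ω, (Z ^ 2) ω ∂P) = ∫ ω, Z ω ^ 2 ∂P := rfl
  rw [h4, ← he, div_le_iff₀ (by positivity)]
  have h5 : β ≤ β / m ^ 2 * e ^ 2 := by
    have h6 : 1 ≤ e ^ 2 / m ^ 2 := by
      rw [le_div_iff₀ (by positivity), one_mul]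
      exact pow_le_pow_left₀ hm.le hm1 2
    calc β = β * 1 := (mul_one β).symm
      _ ≤ β * (e ^ 2 / m ^ 2) := by gcongr
      _ = β / m ^ 2 * e ^ 2 := by ring
  have h7 : (4 * δ + 4 * β / m ^ 2) * (e / 2) ^ 2 = δ * e ^ 2 + β / m ^ 2 * e ^ 2 := by ring
  rw [h7]
  linarith

section Moments

variable {n T : ℕ}

/-- the event that all rows fall in the slabs -/
def W (K₁ : Set (Fin n → ℝ)) (r : ℝ) (a b : Fin T → ℝ) :
    Set ((Fin T → Fin n → ℝ) × (Fin n → ℝ)) :=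
  {q | q.2 ∈ K₁ ∧ ∀ i, a i * r ≤ q.1 i ⬝ᵥ q.2 ∧ q.1 i ⬝ᵥ q.2 ≤ b i * r}

theorem measurable_dot : Measurable (fun q : (Fin n → ℝ) × (Fin n → ℝ) => q.1 ⬝ᵥ q.2) := by
  unfold dotProduct
  fun_prop

theorem measurableSet_W {K₁ : Set (Fin n → ℝ)} (hK₁ : MeasurableSet K₁) (r : ℝ)
    (a b : Fin T → ℝ) : MeasurableSet (W K₁ r a b) := by
  have h1 : ∀ i, Measurable (fun q : (Fin T → Fin n → ℝ) × (Fin n → ℝ) => q.1 i ⬝ᵥ q.2) := by
    intro i
    unfold dotProduct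
    fun_prop
  have h2 : W K₁ r a b = (Prod.snd ⁻¹' K₁) ∩ ⋂ i,
      ({q : (Fin T → Fin n → ℝ) × (Fin n → ℝ) | a i * r ≤ q.1 i ⬝ᵥ q.2} ∩
        {q : (Fin T → Fin n → ℝ) × (Fin n → ℝ) | q.1 i ⬝ᵥ q.2 ≤ b i * r}) := by
    ext q
    simp [W]
  rw [h2]
  apply (measurable_snd hK₁).inter
  apply MeasurableSet.iInter
  intro i
  exact (measurableSet_le measurable_const (h1 i)).inter (measurableSet_le (h1 i) measurable_const)

instance gam_prob : IsProbabilityMeasure (gam n) := by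
  unfold gam
  infer_instance

/-- law of the rows -/
noncomputable def PP (n T : ℕ) : Measure (Fin T → Fin n → ℝ) :=
  Measure.pi (fun _ : Fin T => gam n)

instance PP_prob : IsProbabilityMeasure (PP n T) := by
  unfold PP
  infer_instance

/-- slab probability -/
noncomputable def pr (r : ℝ) (a b : ℝ) (x : Fin n → ℝ) : ℝ≥0∞ :=
  gam n {g | a * r ≤ g ⬝ᵥ x ∧ g ⬝ᵥ x ≤ b * r}

theorem PP_slabs (r : ℝ) (a b : Fin T → ℝ) (x : Fin n → ℝ) :
    PP n T {g | ∀ i, a i * r ≤ g i ⬝ᵥ x ∧ g i ⬝ᵥ x ≤ b i * r} = ∏ i, pr r (a i) (b i) x := by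
  have h1 : {g : Fin T → Fin n → ℝ | ∀ i, a i * r ≤ g i ⬝ᵥ x ∧ g i ⬝ᵥ x ≤ b i * r} =
      Set.univ.pi (fun i => {g | a i * r ≤ g ⬝ᵥ x ∧ g ⬝ᵥ x ≤ b i * r}) := by
    ext g
    simp
  rw [h1]
  unfold PP
  rw [Measure.pi_pi]
  rfl

theorem PP_slabs2 (r : ℝ) (a b : Fin T → ℝ) (x x' : Fin n → ℝ) :
    PP n T {g | ∀ i, (a i * r ≤ g i ⬝ᵥ x ∧ g i ⬝ᵥ x ≤ b i * r) ∧
      (a i * r ≤ g i ⬝ᵥ x' ∧ g i ⬝ᵥ x' ≤ b i * r)} =
      ∏ i, gam n {g | (a i * r ≤ g ⬝ᵥ x ∧ g ⬝ᵥ x ≤ b i * r) ∧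
        (a i * r ≤ g ⬝ᵥ x' ∧ g ⬝ᵥ x' ≤ b i * r)} := by
  have h1 : {g : Fin T → Fin n → ℝ | ∀ i, (a i * r ≤ g i ⬝ᵥ x ∧ g i ⬝ᵥ x ≤ b i * r) ∧
      (a i * r ≤ g i ⬝ᵥ x' ∧ g i ⬝ᵥ x' ≤ b i * r)} =
      Set.univ.pi (fun i => {g | (a i * r ≤ g ⬝ᵥ x ∧ g ⬝ᵥ x ≤ b i * r) ∧
        (a i * r ≤ g ⬝ᵥ x' ∧ g ⬝ᵥ x' ≤ b i * r)}) := by
    ext g
    simp
  rw [h1]
  unfold PP
  rw [Measure.pi_pi]

/-- `Z` as a function of the rows -/
noncomputable def Zf (K₁ : Set (Fin n → ℝ)) (r : ℝ) (a b : Fin T → ℝ)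
    (g : Fin T → Fin n → ℝ) : ℝ≥0∞ := volume {x | (g, x) ∈ W K₁ r a b}

theorem measurable_Zf {K₁ : Set (Fin n → ℝ)} (hK₁ : MeasurableSet K₁) (r : ℝ)
    (a b : Fin T → ℝ) : Measurable (Zf K₁ r a b) :=
  measurable_measure_prodMk_left (measurableSet_W hK₁ r a b)

theorem measurable_prodpr (r : ℝ) (a b : Fin T → ℝ) :
    Measurable (fun x : Fin n → ℝ => ∏ i, pr r (a i) (b i) x) := by
  have h := measurable_measure_prodMk_right (μ := PP n T)
    (measurableSet_W (MeasurableSet.univ (α := Fin n → ℝ)) r a b)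
  have h2 : (fun x : Fin n → ℝ => ∏ i, pr r (a i) (b i) x) =
      fun x => PP n T ((fun g => (g, x)) ⁻¹' W Set.univ r a b) := by
    funext x
    rw [← PP_slabs]
    congr 1
    ext g
    simp [W]
  rw [h2]
  exact h

theorem first_moment {K₁ : Set (Fin n → ℝ)} (hK₁ : MeasurableSet K₁) (r : ℝ)
    (a b : Fin T → ℝ) :
    ∫⁻ g, Zf K₁ r a b g ∂(PP n T) = ∫⁻ x in K₁, ∏ i, pr r (a i) (b i) x := by
  have h1 : ∫⁻ g, Zf K₁ r a b g ∂(PP n T) = ((PP n T).prod volume) (W K₁ r a b) := by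
    rw [Measure.prod_apply (measurableSet_W hK₁ r a b)]
    rfl
  rw [h1, Measure.prod_apply_symm (measurableSet_W hK₁ r a b), ← lintegral_indicator hK₁]
  apply lintegral_congr
  intro x
  by_cases hx : x ∈ K₁
  · rw [Set.indicator_of_mem hx, ← PP_slabs]
    congr 1
    ext g
    simp [W, hx]
  · rw [Set.indicator_of_notMem hx]
    have : ((fun g : Fin T → Fin n → ℝ => (g, x)) ⁻¹' W K₁ r a b) = ∅ := by
      ext g
      simp [W, hx]
    rw [this, measure_empty]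

theorem second_moment {K₁ : Set (Fin n → ℝ)} (hK₁ : MeasurableSet K₁) (r : ℝ)
    (a b : Fin T → ℝ) :
    ∫⁻ g, Zf K₁ r a b g ^ 2 ∂(PP n T) =
      ∫⁻ q in K₁ ×ˢ K₁, ∏ i, gam n {g | (a i * r ≤ g ⬝ᵥ q.1 ∧ g ⬝ᵥ q.1 ≤ b i * r) ∧
        (a i * r ≤ g ⬝ᵥ q.2 ∧ g ⬝ᵥ q.2 ≤ b i * r)} ∂((volume : Measure (Fin n → ℝ)).prod volume) := by
  set W2 : Set ((Fin T → Fin n → ℝ) × ((Fin n → ℝ) × (Fin n → ℝ))) :=
    {q | (q.1, q.2.1) ∈ W K₁ r a b ∧ (q.1, q.2.2) ∈ W K₁ r a b} with hW2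
  have hm2 : MeasurableSet W2 := by
    apply MeasurableSet.inter
    · exact (measurable_fst.prodMk (measurable_fst.comp measurable_snd))
        (measurableSet_W hK₁ r a b)
    · exact (measurable_fst.prodMk (measurable_snd.comp measurable_snd))
        (measurableSet_W hK₁ r a b)
  have h1 : ∫⁻ g, Zf K₁ r a b g ^ 2 ∂(PP n T) = ((PP n T).prod
      ((volume : Measure (Fin n → ℝ)).prod volume)) W2 := by
    rw [Measure.prod_apply hm2]
    apply lintegral_congr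
    intro g
    have h3 : (Prod.mk g ⁻¹' W2) = {x | (g, x) ∈ W K₁ r a b} ×ˢ {x | (g, x) ∈ W K₁ r a b} := by
      ext q
      simp [hW2]
    rw [h3, Measure.prod_prod, sq]
    rfl
  rw [h1, Measure.prod_apply_symm hm2, ← lintegral_indicator (hK₁.prod hK₁)]
  apply lintegral_congr
  intro q
  by_cases hq : q ∈ K₁ ×ˢ K₁
  · rw [Set.indicator_of_mem hq, ← PP_slabs2]
    obtain ⟨hq1, hq2⟩ := hq
    congr 1
    ext g
    simp only [hW2, W, mem_preimage, mem_ofPred_eq, hq1, hq2, true_and]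
    exact forall_and.symm
  · rw [Set.indicator_of_notMem hq]
    have : ((fun g : Fin T → Fin n → ℝ => (g, q)) ⁻¹' W2) = ∅ := by
      ext g
      simp only [hW2, W, mem_preimage, mem_ofPred_eq, mem_empty_iff_false, iff_false]
      intro h
      exact hq ⟨h.1.1, h.2.1⟩
    rw [this, measure_empty]

end Moments

section Bad

variable {n : ℕ}

theorem int_dot_sq {K : Set (Fin n → ℝ)} (hK : IsCompact K)
    (hiso : ∀ i j, ∫ x in K, x i * x j = if i = j then (volume K).toReal else 0) :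
    Integrable (fun q : (Fin n → ℝ) × (Fin n → ℝ) => (q.1 ⬝ᵥ q.2) ^ 2)
      ((volume.restrict K).prod (volume.restrict K)) ∧
    ∫ q, (q.1 ⬝ᵥ q.2) ^ 2 ∂((volume.restrict K).prod (volume.restrict K)) =
      n * (volume K).toReal ^ 2 := by
  have hi : ∀ f : (Fin n → ℝ) × (Fin n → ℝ) → ℝ, Continuous f →
      Integrable f ((volume.restrict K).prod (volume.restrict K)) := by
    intro f hf
    rw [Measure.prod_restrict]
    exact hf.continuousOn.integrableOn_compact (hK.prod hK)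
  have hc : Continuous (fun q : (Fin n → ℝ) × (Fin n → ℝ) => (q.1 ⬝ᵥ q.2) ^ 2) := by
    unfold dotProduct
    fun_prop
  refine ⟨hi _ hc, ?_⟩
  have h1 : ∀ q : (Fin n → ℝ) × (Fin n → ℝ), (q.1 ⬝ᵥ q.2) ^ 2 =
      ∑ i, ∑ j, (q.1 i * q.1 j) * (q.2 i * q.2 j) := by
    intro q
    unfold dotProduct
    rw [sq, Finset.sum_mul_sum]
    apply Finset.sum_congr rfl
    intro i _
    apply Finset.sum_congr rfl
    intro j _
    ring
  simp_rw [h1]
  rw [integral_finsetSum _ (fun i _ => hi _ (by fun_prop))]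
  have h2 : ∀ i : Fin n, ∫ q : (Fin n → ℝ) × (Fin n → ℝ),
      ∑ j, (q.1 i * q.1 j) * (q.2 i * q.2 j) ∂((volume.restrict K).prod (volume.restrict K)) =
      (volume K).toReal ^ 2 := by
    intro i
    rw [integral_finsetSum _ (fun j _ => hi _ (by fun_prop))]
    have h3 : ∀ j : Fin n, ∫ q : (Fin n → ℝ) × (Fin n → ℝ),
        (q.1 i * q.1 j) * (q.2 i * q.2 j) ∂((volume.restrict K).prod (volume.restrict K)) =
        if i = j then (volume K).toReal ^ 2 else 0 := by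
      intro j
      rw [integral_prod_mul (μ := volume.restrict K) (ν := volume.restrict K)
        (fun x : Fin n → ℝ => x i * x j) (fun x : Fin n → ℝ => x i * x j), hiso i j]
      split_ifs
      · ring
      · ring
    simp_rw [h3]
    simp
  simp_rw [h2]
  simp

theorem bad_pairs {K K₁ : Set (Fin n → ℝ)} (hK : IsCompact K) (hK1 : K₁ ⊆ K)
    (hiso : ∀ i j, ∫ x in K, x i * x j = if i = j then (volume K).toReal else 0)
    {r ρ₀ : ℝ} (hr : 0 < r) (hρ : 0 < ρ₀) (hK1r : ∀ x ∈ K₁, r ^ 2 ≤ x ⬝ᵥ x) :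
    ((volume : Measure (Fin n → ℝ)).prod volume)
      ({q | ρ₀ * √(q.1 ⬝ᵥ q.1) * √(q.2 ⬝ᵥ q.2) < |q.1 ⬝ᵥ q.2|} ∩ K₁ ×ˢ K₁) ≤
      ENNReal.ofReal (n * (volume K).toReal ^ 2 / (ρ₀ ^ 2 * r ^ 4)) := by
  obtain ⟨h1, h2⟩ := int_dot_sq hK hiso
  have hfin : IsFiniteMeasure (volume.restrict K) := ⟨by
    rw [Measure.restrict_apply_univ]
    exact hK.measure_lt_top⟩
  have h3 := mul_meas_ge_le_integral_of_nonneg (μ := (volume.restrict K).prod (volume.restrict K))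
    (f := fun q : (Fin n → ℝ) × (Fin n → ℝ) => (q.1 ⬝ᵥ q.2) ^ 2)
    (Filter.Eventually.of_forall fun q => sq_nonneg _) h1 (ρ₀ ^ 2 * r ^ 4)
  rw [h2] at h3
  have hsub : ({q : (Fin n → ℝ) × (Fin n → ℝ) |
      ρ₀ * √(q.1 ⬝ᵥ q.1) * √(q.2 ⬝ᵥ q.2) < |q.1 ⬝ᵥ q.2|} ∩ K₁ ×ˢ K₁) ⊆
      {q | ρ₀ ^ 2 * r ^ 4 ≤ (q.1 ⬝ᵥ q.2) ^ 2} ∩ K ×ˢ K := by
    rintro q ⟨hq, hq1, hq2⟩
    refine ⟨?_, hK1 hq1, hK1 hq2⟩
    simp only [mem_ofPred_eq] at hq ⊢
    have e1 := hK1r _ hq1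
    have e2 := hK1r _ hq2
    have f1 : r ≤ √(q.1 ⬝ᵥ q.1) := Real.le_sqrt_of_sq_le e1
    have f2 : r ≤ √(q.2 ⬝ᵥ q.2) := Real.le_sqrt_of_sq_le e2
    have f3 : ρ₀ * r * r ≤ |q.1 ⬝ᵥ q.2| := by
      calc ρ₀ * r * r ≤ ρ₀ * √(q.1 ⬝ᵥ q.1) * √(q.2 ⬝ᵥ q.2) := by gcongr
        _ ≤ _ := hq.le
    calc ρ₀ ^ 2 * r ^ 4 = (ρ₀ * r * r) ^ 2 := by ring
      _ ≤ |q.1 ⬝ᵥ q.2| ^ 2 := by gcongr
      _ = _ := sq_abs _
  have hm : MeasurableSet {q : (Fin n → ℝ) × (Fin n → ℝ) | ρ₀ ^ 2 * r ^ 4 ≤ (q.1 ⬝ᵥ q.2) ^ 2} :=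
    measurableSet_le measurable_const (measurable_dot.pow_const 2)
  refine (measure_mono hsub).trans ?_
  rw [← Measure.restrict_apply hm, ← Measure.prod_restrict]
  rw [← ENNReal.ofReal_toReal (measure_ne_top _ _)]
  apply ENNReal.ofReal_le_ofReal
  rw [le_div_iff₀ (by positivity), mul_comm]
  exact h3

end Bad

section Bounds

variable {n T : ℕ}

/-- lower bound for a slab probability -/
noncomputable def ell (η a b : ℝ) : ℝ :=
  ((1 + η) * √(2 * Real.pi))⁻¹ * (b - a) * Real.exp (-(max (a ^ 2) (b ^ 2)) / 2)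

theorem ell_nonneg {η a b : ℝ} (hη : 0 < η) (hab : a < b) : 0 ≤ ell η a b := by
  unfold ell
  have : 0 ≤ b - a := by linarith
  positivity

theorem first_lower {K₁ : Set (Fin n → ℝ)} (hK₁ : MeasurableSet K₁) {η r : ℝ} (hη : 0 < η)
    (hr : 0 < r) (a b : Fin T → ℝ) (hab : ∀ i, a i < b i)
    (h1 : ∀ x ∈ K₁, r ^ 2 ≤ x ⬝ᵥ x) (h2 : ∀ x ∈ K₁, x ⬝ᵥ x ≤ ((1 + η) * r) ^ 2) :
    ENNReal.ofReal (∏ i, ell η (a i) (b i)) * volume K₁ ≤ ∫⁻ g, Zf K₁ r a b g ∂(PP n T) := by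
  rw [first_moment hK₁, ← setLIntegral_const]
  apply setLIntegral_mono' hK₁
  intro x hx
  rw [ENNReal.ofReal_prod_of_nonneg (fun i _ => ell_nonneg hη (hab i))]
  apply Finset.prod_le_prod'
  intro i _
  exact gauss_single x η (a i) (b i) r hη hr (h1 x hx) (h2 x hx) (hab i)

theorem second_upper {K K₁ : Set (Fin n → ℝ)} (hK : IsCompact K) (hK1 : K₁ ⊆ K)
    (hK₁ : MeasurableSet K₁)
    (hiso : ∀ i j, ∫ x in K, x i * x j = if i = j then (volume K).toReal else 0)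
    {r ρ₀ : ℝ} (hr : 0 < r) (hρ : 0 < ρ₀) (hρ2 : ρ₀ ≤ 1 / 2) (a b : Fin T → ℝ)
    (hab : ∀ i, a i < b i) (ha : ∀ i, -4 ≤ a i) (hb : ∀ i, b i ≤ 4)
    (h1 : ∀ x ∈ K₁, r ^ 2 ≤ x ⬝ᵥ x) :
    ∫⁻ g, Zf K₁ r a b g ^ 2 ∂(PP n T) ≤
      ENNReal.ofReal (Real.exp (20 * ρ₀ * T)) * (∫⁻ g, Zf K₁ r a b g ∂(PP n T)) ^ 2
        + ENNReal.ofReal (n * (volume K).toReal ^ 2 / (ρ₀ ^ 2 * r ^ 4)) := by
  rw [second_moment hK₁, first_moment hK₁]
  set bad : Set ((Fin n → ℝ) × (Fin n → ℝ)) :=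
    {q | ρ₀ * √(q.1 ⬝ᵥ q.1) * √(q.2 ⬝ᵥ q.2) < |q.1 ⬝ᵥ q.2|} with hbad
  have hdd : Measurable (fun x : Fin n → ℝ => x ⬝ᵥ x) := by
    unfold dotProduct
    fun_prop
  have hbm : MeasurableSet bad := by
    apply measurableSet_lt
    · have e1 : Measurable (fun q : (Fin n → ℝ) × (Fin n → ℝ) => √(q.1 ⬝ᵥ q.1)) :=
        (hdd.comp measurable_fst).sqrt
      have e2 : Measurable (fun q : (Fin n → ℝ) × (Fin n → ℝ) => √(q.2 ⬝ᵥ q.2)) :=
        (hdd.comp measurable_snd).sqrt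
      exact (measurable_const.mul e1).mul e2
    · exact measurable_dot.abs
  have hpt : ∀ q ∈ K₁ ×ˢ K₁, (∏ i, gam n {g | (a i * r ≤ g ⬝ᵥ q.1 ∧ g ⬝ᵥ q.1 ≤ b i * r) ∧
        (a i * r ≤ g ⬝ᵥ q.2 ∧ g ⬝ᵥ q.2 ≤ b i * r)}) ≤
      ENNReal.ofReal (Real.exp (20 * ρ₀ * T)) *
        ((∏ i, pr r (a i) (b i) q.1) * (∏ i, pr r (a i) (b i) q.2)) + bad.indicator 1 q := by
    rintro q ⟨hq1, hq2⟩
    by_cases hq : q ∈ bad
    · rw [Set.indicator_of_mem hq]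
      refine le_trans ?_ le_add_self
      rw [Pi.one_apply]
      apply Finset.prod_le_one'
      intro i _
      exact prob_le_one
    · rw [Set.indicator_of_notMem hq, add_zero]
      have hq' : |q.1 ⬝ᵥ q.2| ≤ ρ₀ * √(q.1 ⬝ᵥ q.1) * √(q.2 ⬝ᵥ q.2) := by
        rw [hbad] at hq
        simpa using hq
      calc _ ≤ ∏ i, (ENNReal.ofReal (Real.exp (20 * ρ₀)) * pr r (a i) (b i) q.1 *
            pr r (a i) (b i) q.2) := by
            apply Finset.prod_le_prod'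
            intro i _
            exact gauss_pair q.1 q.2 ρ₀ (a i) (b i) r hρ.le hρ2 hr (h1 _ hq1) (h1 _ hq2) hq'
              (ha i) (hb i) (hab i)
        _ = _ := by
            rw [Finset.prod_mul_distrib, Finset.prod_mul_distrib, Finset.prod_const,
              Finset.card_univ, Fintype.card_fin, ← ENNReal.ofReal_pow (Real.exp_pos _).le,
              ← Real.exp_nat_mul, mul_assoc,
              show (T : ℝ) * (20 * ρ₀) = 20 * ρ₀ * T by ring]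
  have hmp := measurable_prodpr (n := n) r a b
  calc _ ≤ ∫⁻ q in K₁ ×ˢ K₁, (ENNReal.ofReal (Real.exp (20 * ρ₀ * T)) *
        ((∏ i, pr r (a i) (b i) q.1) * (∏ i, pr r (a i) (b i) q.2)) + bad.indicator 1 q)
        ∂((volume : Measure (Fin n → ℝ)).prod volume) :=
        setLIntegral_mono' (hK₁.prod hK₁) hpt
    _ = ENNReal.ofReal (Real.exp (20 * ρ₀ * T)) *
        (∫⁻ x in K₁, ∏ i, pr r (a i) (b i) x) ^ 2 +
        ((volume : Measure (Fin n → ℝ)).prod volume) (bad ∩ K₁ ×ˢ K₁) := by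
        rw [lintegral_add_right _ ((measurable_one.indicator hbm)), lintegral_indicator_one hbm,
          Measure.restrict_apply hbm]
        congr 1
        rw [← Measure.prod_restrict, lintegral_const_mul]
        · rw [lintegral_prod_mul (μ := volume.restrict K₁) (ν := volume.restrict K₁)
            hmp.aemeasurable hmp.aemeasurable, sq]
        · exact (hmp.comp measurable_fst).mul (hmp.comp measurable_snd)
    _ ≤ _ := by
        gcongr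
        exact bad_pairs hK hK1 hiso hr hρ h1

/-- probability that a given box gets too little mass -/
theorem box_prob {K K₁ : Set (Fin n → ℝ)} (hK : IsCompact K) (hK1 : K₁ ⊆ K)
    (hK₁ : MeasurableSet K₁) (hv : 0 < (volume K₁).toReal)
    (hiso : ∀ i j, ∫ x in K, x i * x j = if i = j then (volume K).toReal else 0)
    {η r ρ₀ : ℝ} (hη : 0 < η) (hr : 0 < r) (hρ : 0 < ρ₀) (hρ2 : ρ₀ ≤ 1 / 2) (a b : Fin T → ℝ)
    (hab : ∀ i, a i < b i) (ha : ∀ i, -4 ≤ a i) (hb : ∀ i, b i ≤ 4)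
    (h1 : ∀ x ∈ K₁, r ^ 2 ≤ x ⬝ᵥ x) (h2 : ∀ x ∈ K₁, x ⬝ᵥ x ≤ ((1 + η) * r) ^ 2) :
    PP n T {g | (Zf K₁ r a b g).toReal < ((∏ i, ell η (a i) (b i)) * (volume K₁).toReal) / 2} ≤
      ENNReal.ofReal (4 * (Real.exp (20 * ρ₀ * T) - 1) +
        4 * (n * (volume K).toReal ^ 2 / (ρ₀ ^ 2 * r ^ 4)) /
          ((∏ i, ell η (a i) (b i)) * (volume K₁).toReal) ^ 2) := by
  have hKt : volume K < ∞ := hK.measure_lt_top
  have hK1t : volume K₁ < ∞ := lt_of_le_of_lt (measure_mono hK1) hKt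
  have hZle : ∀ g, Zf K₁ r a b g ≤ volume K := by
    intro g
    apply measure_mono
    intro x hx
    exact hK1 hx.1
  have hZt : ∀ g, Zf K₁ r a b g < ∞ := fun g => lt_of_le_of_lt (hZle g) hKt
  have hZm := measurable_Zf hK₁ r a b
  have hell : 0 < ∏ i, ell η (a i) (b i) := by
    apply Finset.prod_pos
    intro i _
    unfold ell
    have : 0 < b i - a i := by linarith [hab i]
    positivity
  apply cheb (PP n T) (fun g => (Zf K₁ r a b g).toReal) hZm.ennreal_toReal (volume K).toReal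
  · intro g
    rw [abs_of_nonneg ENNReal.toReal_nonneg]
    exact ENNReal.toReal_mono hKt.ne (hZle g)
  · positivity
  · positivity
  · rw [integral_toReal hZm.aemeasurable (Filter.Eventually.of_forall hZt)]
    have h3 := first_lower hK₁ hη hr a b hab h1 h2
    have h4 : ∫⁻ g, Zf K₁ r a b g ∂(PP n T) ≠ ∞ := by
      apply ne_of_lt
      calc ∫⁻ g, Zf K₁ r a b g ∂(PP n T) ≤ ∫⁻ _g, volume K ∂(PP n T) := lintegral_mono hZle
        _ = volume K := by simp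
        _ < ∞ := hKt
    have h5 := ENNReal.toReal_mono h4 h3
    rwa [ENNReal.toReal_mul, ENNReal.toReal_ofReal hell.le] at h5
  · have h4 : ∫⁻ g, Zf K₁ r a b g ∂(PP n T) ≠ ∞ := by
      apply ne_of_lt
      calc ∫⁻ g, Zf K₁ r a b g ∂(PP n T) ≤ ∫⁻ _g, volume K ∂(PP n T) := lintegral_mono hZle
        _ = volume K := by simp
        _ < ∞ := hKt
    have h3 := second_upper hK hK1 hK₁ hiso hr hρ hρ2 a b hab ha hb h1
    have h5 : ENNReal.ofReal (Real.exp (20 * ρ₀ * T)) * (∫⁻ g, Zf K₁ r a b g ∂(PP n T)) ^ 2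
        + ENNReal.ofReal (n * (volume K).toReal ^ 2 / (ρ₀ ^ 2 * r ^ 4)) ≠ ∞ := by
      apply ENNReal.add_ne_top.2
      exact ⟨ENNReal.mul_ne_top ENNReal.ofReal_ne_top (ENNReal.pow_ne_top h4),
        ENNReal.ofReal_ne_top⟩
    have h6 := ENNReal.toReal_mono h5 h3
    rw [ENNReal.toReal_add (ENNReal.mul_ne_top ENNReal.ofReal_ne_top (ENNReal.pow_ne_top h4))
      ENNReal.ofReal_ne_top, ENNReal.toReal_mul, ENNReal.toReal_ofReal (Real.exp_pos _).le,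
      ENNReal.toReal_ofReal (by positivity), ENNReal.toReal_pow] at h6
    rw [integral_toReal hZm.aemeasurable (Filter.Eventually.of_forall hZt)]
    have h7 : ∫ g, (Zf K₁ r a b g).toReal ^ 2 ∂(PP n T) =
        (∫⁻ g, Zf K₁ r a b g ^ 2 ∂(PP n T)).toReal := by
      rw [← integral_toReal (hZm.pow_const 2).aemeasurable
        (Filter.Eventually.of_forall fun g => ENNReal.pow_lt_top (hZt g))]
      simp_rw [ENNReal.toReal_pow]
    rw [h7]
    refine h6.trans (le_of_eq ?_)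
    ring

end Bounds

end ExistsGAux

end Vale.P230
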