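import Vale.Agent.Lib.P230.SecQC
import Vale.Agent.Lib.P230.Hull
import Vale.Agent.Lib.P230.Iso

/-!
# P230, module Marginal, relative to the statement of module ExistsG
-/

open MeasureTheory ProbabilityTheory Set
open scoped ENNReal Pointwise

namespace Vale.P230

lemma exists_equiv_of_surj {n N T : ℕ} (hn : n = N + T) (G : (Fin n → ℝ) →ₗ[ℝ] (Fin T → ℝ))
    (hG : LinearMap.range G = ⊤) :
    ∃ L : (Fin n → ℝ) ≃ₗ[ℝ] ((Fin N → ℝ) × (Fin T → ℝ)), ∀ x, (L x).2 = G x := by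
  classical
  obtain ⟨q, hq⟩ := Submodule.exists_isCompl (LinearMap.ker G)
  have hfin : Module.finrank ℝ (LinearMap.ker G) = N := by
    have h := LinearMap.finrank_range_add_finrank_ker G
    rw [hG, finrank_top, Module.finrank_fin_fun, Module.finrank_fin_fun] at h
    omega
  have e : LinearMap.ker G ≃ₗ[ℝ] (Fin N → ℝ) :=
    LinearEquiv.ofFinrankEq _ _ (by rw [hfin, Module.finrank_fin_fun])
  set P : (Fin n → ℝ) →ₗ[ℝ] (Fin N → ℝ) :=
    e.toLinearMap ∘ₗ (Submodule.projectionOnto (LinearMap.ker G) q hq) with hP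
  have hPr : LinearMap.range P = ⊤ := by
    rw [hP, LinearMap.range_comp, Submodule.range_projectionOnto hq]
    simp
  have hPk : LinearMap.ker P = q := by
    rw [hP, LinearEquiv.ker_comp]
    exact Submodule.ker_projectionOnto hq
  refine ⟨LinearMap.equivProdOfSurjectiveOfIsCompl P G hPr hG (by rw [hPk]; exact hq.symm), ?_⟩
  intro x
  rfl

lemma exists_scale {n N T : ℕ} (L : (Fin n → ℝ) ≃ₗ[ℝ] ((Fin N → ℝ) × (Fin T → ℝ))) :
    ∃ κ : ℝ≥0∞, κ ≠ 0 ∧ κ ≠ ∞ ∧ ∀ s : Set (Fin n → ℝ), volume (L '' s) = κ * volume s := by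
  have : Measure.IsAddHaarMeasure (volume : Measure ((Fin N → ℝ) × (Fin T → ℝ))) :=
    Measure.prod.instIsAddHaarMeasure _ _
  set L' := L.toContinuousLinearEquiv with hL'
  have h1 : Measure.IsAddHaarMeasure ((volume : Measure (Fin n → ℝ)).map L') :=
    L'.isAddHaarMeasure_map volume
  obtain ⟨c, hc⟩ : ∃ c : NNReal, c ≠ 0 ∧ (volume : Measure ((Fin N → ℝ) × (Fin T → ℝ))) =
      c • ((volume : Measure (Fin n → ℝ)).map L') := by
    refine ⟨_, ?_, Measure.isAddLeftInvariant_eq_smul _ _⟩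
    exact (Measure.addHaarScalarFactor_pos_of_isAddHaarMeasure _ _).ne'
  refine ⟨c, by simpa using hc.1, ENNReal.coe_ne_top, fun s => ?_⟩
  have h2 : MeasurableEmbedding L' := L'.toHomeomorph.measurableEmbedding
  have : L '' s = L' '' s := rfl
  rw [this, hc.2, Measure.smul_apply, h2.map_apply, Set.preimage_image_eq _ L'.injective]
  rfl

/-- choice of the box -/
lemma exists_box {T : ℕ} (hT : 0 < T) (w : ℝ) (hw : |w| ≤ 4) :
    ∃ k : ℤ, -(8 * (T : ℤ)) ≤ k ∧ k < 8 * T ∧ (k : ℝ) / (2 * T) ≤ w ∧ w ≤ ((k : ℝ) + 1) / (2 * T) := by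
  have hT' : (0 : ℝ) < T := by exact_mod_cast hT
  obtain ⟨h1, h2⟩ := abs_le.mp hw
  rcases eq_or_lt_of_le h2 with h | h
  · refine ⟨8 * T - 1, by omega, by omega, ?_, ?_⟩
    · rw [h, div_le_iff₀ (by positivity)]; push_cast; linarith
    · rw [h, le_div_iff₀ (by positivity)]; push_cast; linarith
  · refine ⟨⌊w * (2 * T)⌋, ?_, ?_, ?_, ?_⟩
    · rw [Int.le_floor]; push_cast; nlinarith
    · rw [Int.floor_lt]; push_cast; nlinarith
    · rw [div_le_iff₀ (by positivity)]; exact Int.floor_le _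
    · rw [le_div_iff₀ (by positivity)]; exact (Int.lt_floor_add_one _).le

lemma max_sq_le {T : ℕ} (hT : 0 < T) (w : ℝ) (k : ℤ) (h1 : (k : ℝ) / (2 * T) ≤ w)
    (h2 : w ≤ ((k : ℝ) + 1) / (2 * T)) :
    max (((k : ℝ) / (2 * T)) ^ 2) ((((k : ℝ) + 1) / (2 * T)) ^ 2) ≤ (|w| + 1 / (2 * T)) ^ 2 := by
  have hT' : (0 : ℝ) < T := by exact_mod_cast hT
  have h3 : ((k : ℝ) + 1) / (2 * T) = (k : ℝ) / (2 * T) + 1 / (2 * T) := by ring
  have h4 : 0 < 1 / (2 * (T : ℝ)) := by positivity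
  have ha := abs_nonneg w
  have hb := le_abs_self w
  have hc := neg_abs_le w
  apply max_le
  · apply sq_le_sq'
    · linarith
    · linarith
  · apply sq_le_sq'
    · linarith
    · linarith

lemma sum_max_le {T : ℕ} (hT : 0 < T) (y : Fin T → ℝ) (hy : ∀ i, |y i| ≤ 3) (j : Fin T) (e : ℝ)
    (he : e = 1 ∨ e = -1) (k : Fin T → ℤ)
    (h1 : ∀ i, (k i : ℝ) / (2 * T) ≤ y i + if i = j then e else 0)
    (h2 : ∀ i, (y i + if i = j then e else 0) ≤ ((k i : ℝ) + 1) / (2 * T)) :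
    ∑ i, max (((k i : ℝ) / (2 * T)) ^ 2) ((((k i : ℝ) + 1) / (2 * T)) ^ 2) ≤
      ∑ i, y i ^ 2 + 16 := by
  have hT' : (0 : ℝ) < T := by exact_mod_cast hT
  have hT1 : (1 : ℝ) ≤ T := by exact_mod_cast hT
  have hd : 1 / (2 * (T : ℝ)) ≤ 1 / 2 := by
    rw [div_le_div_iff₀ (by positivity) (by norm_num)]; linarith
  have hd0 : 0 < 1 / (2 * (T : ℝ)) := by positivity
  have hdT : (T : ℝ) * (1 / (2 * (T : ℝ))) = 1 / 2 := by field_simp
  set δ := 1 / (2 * (T : ℝ)) with hδ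
  have key : ∀ i, max (((k i : ℝ) / (2 * T)) ^ 2) ((((k i : ℝ) + 1) / (2 * T)) ^ 2) ≤
      y i ^ 2 + (6 * δ + δ ^ 2) + if i = j then 9 else 0 := by
    intro i
    refine (max_sq_le hT _ (k i) (h1 i) (h2 i)).trans ?_
    have hyi := hy i
    have ha := abs_nonneg (y i)
    have hsq : |y i| ^ 2 = y i ^ 2 := sq_abs _
    rw [← hδ]
    by_cases hij : i = j
    · rw [if_pos hij, if_pos hij]
      have h5 : |y i + e| ≤ |y i| + 1 := by
        refine (abs_add_le _ _).trans ?_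
        rcases he with rfl | rfl <;> simp
      have h6 : (|y i + e| + δ) ^ 2 ≤ (|y i| + 1 + δ) ^ 2 := by
        apply sq_le_sq'
        · have := abs_nonneg (y i + e); linarith
        · linarith
      refine h6.trans ?_
      nlinarith
    · rw [if_neg hij, if_neg hij, add_zero, add_zero]
      nlinarith
  refine (Finset.sum_le_sum fun i _ => key i).trans ?_
  rw [Finset.sum_add_distrib, Finset.sum_add_distrib]
  simp only [Finset.sum_const, Finset.card_univ, Fintype.card_fin, nsmul_eq_mul,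
    Finset.sum_ite_eq', Finset.mem_univ, if_true]
  have h7 : (T : ℝ) * (6 * δ + δ ^ 2) ≤ 7 := by
    have : (T : ℝ) * (6 * δ + δ ^ 2) = 6 * (T * δ) + (T * δ) * δ := by ring
    rw [this, hdT]; linarith
  linarith

lemma exists_section {N T : ℕ} (hT : 0 < T) (Q : Set ((Fin N → ℝ) × (Fin T → ℝ))) (hQ : IsCompact Q)
    (k : Fin T → ℤ) (c₀ : ℝ≥0∞)
    (h : c₀ * ENNReal.ofReal ((1 / (2 * (T : ℝ))) ^ T) ≤
      volume {q | q ∈ Q ∧ ∀ i, (k i : ℝ) / (2 * T) ≤ q.2 i ∧ q.2 i ≤ ((k i : ℝ) + 1) / (2 * T)}) :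
    ∃ z : Fin T → ℝ, (∀ i, (k i : ℝ) / (2 * T) ≤ z i ∧ z i ≤ ((k i : ℝ) + 1) / (2 * T)) ∧
      c₀ ≤ volume (sec Q z) := by
  have hT' : (0 : ℝ) < T := by exact_mod_cast hT
  set B : Set (Fin T → ℝ) := Set.Icc (fun i => (k i : ℝ) / (2 * T))
    (fun i => ((k i : ℝ) + 1) / (2 * T)) with hB
  have hBm : MeasurableSet B := measurableSet_Icc
  have hBvol : volume B = ENNReal.ofReal ((1 / (2 * (T : ℝ))) ^ T) := by
    rw [hB, Real.volume_Icc_pi]
    have : ∀ i : Fin T, ((k i : ℝ) + 1) / (2 * T) - (k i : ℝ) / (2 * T) = 1 / (2 * (T : ℝ)) := by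
      intro i; ring
    simp only [this, Finset.prod_const, Finset.card_univ, Fintype.card_fin]
    rw [ENNReal.ofReal_pow (by positivity)]
  have hmem : ∀ z : Fin T → ℝ, z ∈ B ↔
      ∀ i, (k i : ℝ) / (2 * T) ≤ z i ∧ z i ≤ ((k i : ℝ) + 1) / (2 * T) := by
    intro z
    rw [hB, Set.mem_Icc]
    constructor
    · rintro ⟨h1, h2⟩ i; exact ⟨h1 i, h2 i⟩
    · intro h; exact ⟨fun i => (h i).1, fun i => (h i).2⟩
  have hset : {q : (Fin N → ℝ) × (Fin T → ℝ) | q ∈ Q ∧
      ∀ i, (k i : ℝ) / (2 * T) ≤ q.2 i ∧ q.2 i ≤ ((k i : ℝ) + 1) / (2 * T)} =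
      Q ∩ (Prod.snd ⁻¹' B) := by
    ext q
    simp only [Set.mem_ofPred_eq, Set.mem_inter_iff, Set.mem_preimage, hmem]
  have hms : MeasurableSet (Q ∩ (Prod.snd ⁻¹' B)) :=
    hQ.measurableSet.inter (hBm.preimage measurable_snd)
  rw [hset] at h
  have hint : volume (Q ∩ (Prod.snd ⁻¹' B)) = ∫⁻ z in B, volume (sec Q z) := by
    rw [Measure.volume_eq_prod, Measure.prod_apply_symm hms, ← lintegral_indicator hBm]
    congr 1
    ext z
    by_cases hz : z ∈ B
    · rw [Set.indicator_of_mem hz]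
      congr 1
      ext x
      simp [sec, hz]
    · rw [Set.indicator_of_notMem hz]
      have : (fun x : Fin N → ℝ => (x, z)) ⁻¹' (Q ∩ Prod.snd ⁻¹' B) = ∅ := by
        ext x; simp [hz]
      rw [this, measure_empty]
  have hBpos : volume B ≠ 0 := by
    rw [hBvol]
    simp only [ne_eq, ENNReal.ofReal_eq_zero, not_le]
    positivity
  have hBtop : volume B ≠ ∞ := by rw [hBvol]; exact ENNReal.ofReal_ne_top
  have hfin : ∫⁻ z in B, volume (sec Q z) ≠ ∞ := by
    rw [← hint]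
    exact ((measure_mono Set.inter_subset_left).trans_lt hQ.measure_lt_top).ne
  obtain ⟨z, hz, hz'⟩ := exists_setLAverage_le hBpos hBm.nullMeasurableSet hfin
  refine ⟨z, (hmem z).1 hz, le_trans ?_ hz'⟩
  rw [setLAverage_eq, ← hint, ENNReal.le_div_iff_mul_le (Or.inl hBpos) (Or.inl hBtop), hBvol]
  exact h

/-- MODULE Marginal, relative to the statement of `exists_G`. -/
theorem marginal_of (η : ℝ) (hη : 0 < η)
    (hEG : ∃ c : ℝ, 0 < c ∧ ∃ n₀ : ℕ, ∀ (n T : ℕ),
    n₀ ≤ n → 0 < T → (T : ℝ) ^ 2 ≤ Real.log n → ∀ (K : Set (Fin n → ℝ)),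
    Convex ℝ K → IsCompact K → 0 < volume K →
    (∀ i j, ∫ x in K, x i * x j = if i = j then (volume K).toReal else 0) →
    ∃ G : (Fin n → ℝ) →ₗ[ℝ] (Fin T → ℝ), ∀ k : Fin T → ℤ, (∀ i, -(8 * (T : ℤ)) ≤ k i ∧ k i < 8 * T) →
      c * (((1 + η) * √(2 * Real.pi))⁻¹) ^ T * (1 / (2 * (T : ℝ))) ^ T *
        Real.exp (-(∑ i, max (((k i : ℝ) / (2 * T)) ^ 2) ((((k i : ℝ) + 1) / (2 * T)) ^ 2)) / 2)
        * (volume K).toReal ≤
      (volume {x | x ∈ K ∧ ∀ i, (k i : ℝ) / (2 * T) ≤ G x i ∧ G x i ≤ ((k i : ℝ) + 1) / (2 * T)}).toReal) :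
    ∃ c : ℝ, 0 < c ∧ ∃ n₀ : ℕ, ∀ (n N T : ℕ),
    n = N + T → n₀ ≤ n → 0 < T → (T : ℝ) ^ 2 ≤ Real.log n → ∀ (K : Set (Fin n → ℝ)),
    Convex ℝ K → IsCompact K → (interior K).Nonempty →
    ∃ L : (Fin n → ℝ) ≃ₗ[ℝ] ((Fin N → ℝ) × (Fin T → ℝ)), ∀ y : Fin T → ℝ, (∀ i, |y i| ≤ 3) →
      c * (((1 + η) * √(2 * Real.pi))⁻¹) ^ T * Real.exp (-(∑ i, y i ^ 2) / 2)
        * (volume (L '' K)).toReal ≤ (volume (sec (L '' K) y)).toReal := by
  obtain ⟨c, hc, n₀, hG⟩ := hEG
  refine ⟨c * Real.exp (-8), by positivity, n₀, ?_⟩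
  intro n N T hn hn₀ hT hTlog K hKc hK hKi
  have hT' : (0 : ℝ) < T := by exact_mod_cast hT
  obtain ⟨A, hA⟩ := isotropic K hKc hK hKi
  -- the image of `K` under `A`
  have hAcont : Continuous A := A.toLinearMap.continuous_of_finiteDimensional
  have hK1c : Convex ℝ (A '' K) := hKc.linear_image A.toLinearMap
  have hK1 : IsCompact (A '' K) := hK.image hAcont
  have hK1v : 0 < volume (A '' K) := by
    have h1 : (interior (A '' K)).Nonempty := by
      have h2 : A '' (interior K) ⊆ interior (A '' K) :=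
        (A.toContinuousLinearEquiv.toHomeomorph.image_interior K).subset
      exact (hKi.image _).mono h2
    exact Measure.measure_pos_of_nonempty_interior _ h1
  set K1 := A '' K with hK1def
  obtain ⟨G, hGk⟩ := hG n T hn₀ hT hTlog K1 hK1c hK1 hK1v hA
  set α : ℝ := (((1 + η) * √(2 * Real.pi))⁻¹) ^ T with hα
  have hα0 : 0 < α := by positivity
  have hv0 : 0 < (volume K1).toReal := ENNReal.toReal_pos hK1v.ne' hK1.measure_lt_top.ne
  set β : ℝ := (1 / (2 * (T : ℝ))) ^ T with hβ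
  have hβ0 : 0 < β := by positivity
  -- a shifted point in `[-4,4]^T` lies in an admissible box
  have hbox : ∀ (y : Fin T → ℝ), (∀ i, |y i| ≤ 3) → ∀ (j : Fin T) (e : ℝ), (e = 1 ∨ e = -1) →
      ∃ k : Fin T → ℤ, (∀ i, -(8 * (T : ℤ)) ≤ k i ∧ k i < 8 * T) ∧
        (∀ i, (k i : ℝ) / (2 * T) ≤ y i + if i = j then e else 0) ∧
        (∀ i, (y i + if i = j then e else 0) ≤ ((k i : ℝ) + 1) / (2 * T)) := by
    intro y hy j e he
    have h1 : ∀ i, |y i + if i = j then e else 0| ≤ 4 := by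
      intro i
      refine (abs_add_le _ _).trans ?_
      have h2 := hy i
      have h3 : |(if i = j then e else 0)| ≤ 1 := by
        split_ifs
        · rcases he with rfl | rfl <;> simp
        · simp
      linarith
    choose k hk1 hk2 hk3 hk4 using fun i => exists_box hT _ (h1 i)
    exact ⟨k, fun i => ⟨hk1 i, hk2 i⟩, hk3, hk4⟩
  -- surjectivity of `G`
  have hrange : LinearMap.range G = ⊤ := by
    have h1 : ∀ y : Fin T → ℝ, (∀ i, |y i| ≤ 3) → y ∈ LinearMap.range G := by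
      intro y hy
      have h2 : y ∈ convexHull ℝ (LinearMap.range G : Set (Fin T → ℝ)) := by
        apply mem_convexHull_of_near hT
        intro j e he
        obtain ⟨k, hk, hk1, hk2⟩ := hbox y hy j e he
        have h3 := hGk k hk
        have h4 : 0 < (volume {x | x ∈ K1 ∧ ∀ i, (k i : ℝ) / (2 * T) ≤ G x i ∧
            G x i ≤ ((k i : ℝ) + 1) / (2 * T)}).toReal := lt_of_lt_of_le (by positivity) h3
        have h5 : volume {x | x ∈ K1 ∧ ∀ i, (k i : ℝ) / (2 * T) ≤ G x i ∧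
            G x i ≤ ((k i : ℝ) + 1) / (2 * T)} ≠ 0 := by
          intro h; rw [h] at h4; simp at h4
        obtain ⟨x, hx⟩ := nonempty_of_measure_ne_zero h5
        refine ⟨G x, ⟨x, rfl⟩, fun i => ?_⟩
        have h6 := hx.2 i
        have h7 := hk1 i
        have h8 := hk2 i
        have h9 : ((k i : ℝ) + 1) / (2 * T) = (k i : ℝ) / (2 * T) + 1 / (2 * T) := by ring
        rw [abs_le]
        constructor <;> linarith
      have h3 : Convex ℝ (LinearMap.range G : Set (Fin T → ℝ)) := Submodule.convex _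
      rwa [h3.convexHull_eq] at h2
    rw [eq_top_iff]
    intro y _
    have h2 : (1 + ‖y‖) • ((1 + ‖y‖)⁻¹ • y) = y := by
      rw [smul_smul, mul_inv_cancel₀ (by positivity), one_smul]
    rw [← h2]
    apply Submodule.smul_mem
    apply h1
    intro i
    have h3 : |y i| ≤ ‖y‖ := norm_le_pi_norm y i
    rw [Pi.smul_apply, smul_eq_mul, abs_mul, abs_of_pos (by positivity : 0 < (1 + ‖y‖)⁻¹)]
    have h4 : (1 + ‖y‖)⁻¹ * |y i| ≤ 1 := by
      rw [inv_mul_le_iff₀ (by positivity)]; linarith [norm_nonneg y]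
    linarith
  obtain ⟨L0, hL0⟩ := exists_equiv_of_surj (N := N) hn G hrange
  obtain ⟨κ, hκ0, hκt, hκ⟩ := exists_scale L0
  refine ⟨A.trans L0, ?_⟩
  intro y hy
  have himg : (A.trans L0) '' K = L0 '' K1 := by
    rw [hK1def, Set.image_image]; rfl
  rw [himg]
  have hL0cont : Continuous L0 := L0.toLinearMap.continuous_of_finiteDimensional
  have hQ : IsCompact (L0 '' K1) := hK1.image hL0cont
  have hQc : Convex ℝ (L0 '' K1) := hK1c.linear_image L0.toLinearMap
  set Q := L0 '' K1 with hQdef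
  have hvQ : (volume Q).toReal = κ.toReal * (volume K1).toReal := by
    rw [hQdef, hκ, ENNReal.toReal_mul]
  have hκ0' : 0 < κ.toReal := ENNReal.toReal_pos hκ0 hκt
  have hsecfin : volume (sec Q y) ≠ ∞ := by
    have h1 : IsCompact (sec Q y) := by
      have : sec Q y = (fun x : Fin N → ℝ => (x, y)) ⁻¹' Q := rfl
      rw [this]
      have h2 : sec Q y ⊆ Prod.fst '' Q := fun x hx => ⟨(x, y), hx, rfl⟩
      exact (hQ.image continuous_fst).of_isClosed_subset
        (hQ.isClosed.preimage (by fun_prop)) h2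
    exact h1.measure_lt_top.ne
  rw [← ENNReal.ofReal_le_iff_le_toReal hsecfin]
  set c₀ : ℝ≥0∞ := ENNReal.ofReal (c * Real.exp (-8) * α * Real.exp (-(∑ i, y i ^ 2) / 2)
        * (volume Q).toReal) with hc₀
  have hconv := section_quasiconcave Q hQc hQ c₀
  have hmem : y ∈ convexHull ℝ {y : Fin T → ℝ | c₀ ≤ volume (sec Q y)} := by
    apply mem_convexHull_of_near hT
    intro j e he
    obtain ⟨k, hk, hk1, hk2⟩ := hbox y hy j e he
    have h3 := hGk k hk
    have h4 := sum_max_le hT y hy j e he k hk1 hk2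
    have hset : {q : (Fin N → ℝ) × (Fin T → ℝ) | q ∈ Q ∧
        ∀ i, (k i : ℝ) / (2 * T) ≤ q.2 i ∧ q.2 i ≤ ((k i : ℝ) + 1) / (2 * T)} =
        L0 '' {x | x ∈ K1 ∧ ∀ i, (k i : ℝ) / (2 * T) ≤ G x i ∧
          G x i ≤ ((k i : ℝ) + 1) / (2 * T)} := by
      ext q
      constructor
      · rintro ⟨⟨x, hx, rfl⟩, hq⟩
        refine ⟨x, ⟨hx, ?_⟩, rfl⟩
        simpa only [hL0] using hq
      · rintro ⟨x, ⟨hx, hq⟩, rfl⟩
        refine ⟨⟨x, hx, rfl⟩, ?_⟩
        simpa only [hL0] using hq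
    obtain ⟨z, hz1, hz2⟩ := exists_section hT Q hQ k c₀ (by
      rw [hset, hκ, hc₀, ← hβ, ← ENNReal.ofReal_mul (by positivity),
        ← ENNReal.ofReal_toReal (a := κ * _), ENNReal.toReal_mul]
      · apply ENNReal.ofReal_le_ofReal
        rw [hvQ]
        have h5 : Real.exp (-8) * Real.exp (-(∑ i, y i ^ 2) / 2) ≤
            Real.exp (-(∑ i, max (((k i : ℝ) / (2 * T)) ^ 2)
              ((((k i : ℝ) + 1) / (2 * T)) ^ 2)) / 2) := by
          rw [← Real.exp_add]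
          apply Real.exp_le_exp.mpr
          linarith
        calc c * Real.exp (-8) * α * Real.exp (-(∑ i, y i ^ 2) / 2)
              * (κ.toReal * (volume K1).toReal) * β
            = κ.toReal * (c * α * β * (Real.exp (-8) * Real.exp (-(∑ i, y i ^ 2) / 2))
                * (volume K1).toReal) := by ring
          _ ≤ κ.toReal * (c * α * β * Real.exp (-(∑ i, max (((k i : ℝ) / (2 * T)) ^ 2)
                ((((k i : ℝ) + 1) / (2 * T)) ^ 2)) / 2) * (volume K1).toReal) := by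
              gcongr
          _ ≤ _ := by gcongr
      · apply ENNReal.mul_ne_top hκt
        exact ((measure_mono (fun x hx => hx.1)).trans_lt hK1.measure_lt_top).ne)
    refine ⟨z, hz2, fun i => ?_⟩
    have h6 := hz1 i
    have h7 := hk1 i
    have h8 := hk2 i
    have h9 : ((k i : ℝ) + 1) / (2 * T) = (k i : ℝ) / (2 * T) + 1 / (2 * T) := by ring
    rw [abs_le]
    constructor <;> linarith
  rw [hconv.convexHull_eq] at hmem
  exact hmem

end Vale.P230
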