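import Vale.Agent.Lib.P230.SecQC

/-!
# P230, module Position, relative to the statements of modules Marginal and Simplex
-/

open MeasureTheory ProbabilityTheory Set
open scoped ENNReal Pointwise

namespace Vale.P230

lemma convex_sec {N T : ℕ} {Q : Set ((Fin N → ℝ) × (Fin T → ℝ))} (hQ : Convex ℝ Q)
    (y : Fin T → ℝ) : Convex ℝ (sec Q y) := by
  intro x hx x' hx' a b ha hb hab
  have h := hQ hx hx' ha hb hab
  have h2 : a • ((x, y) : (Fin N → ℝ) × (Fin T → ℝ)) + b • (x', y) = (a • x + b • x', y) := by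
    ext i
    · simp
    · simp only [Prod.smul_mk, Prod.mk_add_mk, Pi.add_apply, Pi.smul_apply, smul_eq_mul]
      rw [← add_mul, hab, one_mul]
  rw [h2] at h
  exact h

/-- the cube `[0,1/N]^N` is contained in every convex set containing `0` and all `e_i` -/
lemma cube_subset {N : ℕ} (hN : 0 < N) {A : Set (Fin N → ℝ)} (hA : Convex ℝ A)
    (h0 : (0 : Fin N → ℝ) ∈ A) (he : ∀ i, (Pi.single i 1 : Fin N → ℝ) ∈ A)
    (u : Fin N → ℝ) (hu : ∀ i, 0 ≤ u i ∧ u i ≤ 1 / N) : u ∈ A := by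
  classical
  have hN' : (0 : ℝ) < N := by exact_mod_cast hN
  have hsum : ∑ i, u i ≤ 1 := by
    calc ∑ i, u i ≤ ∑ _i : Fin N, (1 / (N : ℝ)) := Finset.sum_le_sum fun i _ => (hu i).2
      _ = 1 := by
        rw [Finset.sum_const, Finset.card_univ, Fintype.card_fin, nsmul_eq_mul]
        field_simp
  -- use `Option (Fin N)` as index set
  have h1 : ∑ o : Option (Fin N), (Option.elim o (1 - ∑ i, u i) u) •
      (Option.elim o (0 : Fin N → ℝ) (fun i => Pi.single i 1)) ∈ A := by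
    apply hA.sum_mem
    · rintro (_ | i) _
      · simpa using hsum
      · exact (hu i).1
    · rw [Fintype.sum_option]
      simp
    · rintro (_ | i) _
      · exact h0
      · exact he i
  rw [Fintype.sum_option] at h1
  have h2 : (∑ i, u i • (Pi.single i 1 : Fin N → ℝ)) = u := by
    ext k
    simp [Finset.sum_apply, Pi.single_apply]
  simpa [h2] using h1

/-- the affine-block linear map `(x,y) ↦ (P x - ∑ y_j q_j, y)` -/
noncomputable def shear {N T : ℕ} (P : (Fin N → ℝ) ≃ₗ[ℝ] (Fin N → ℝ)) (q : Fin T → Fin N → ℝ) :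
    ((Fin N → ℝ) × (Fin T → ℝ)) ≃ₗ[ℝ] ((Fin N → ℝ) × (Fin T → ℝ)) where
  toFun z := (P z.1 - ∑ j, z.2 j • q j, z.2)
  invFun z := (P.symm (z.1 + ∑ j, z.2 j • q j), z.2)
  map_add' z w := by
    simp only [Prod.fst_add, Prod.snd_add, map_add, Pi.add_apply, add_smul,
      Finset.sum_add_distrib, Prod.mk_add_mk]
    congr 1
    abel
  map_smul' c z := by
    simp only [Prod.smul_fst, Prod.smul_snd, map_smul, Pi.smul_apply, smul_eq_mul, RingHom.id_apply,
      Prod.smul_mk, smul_sub, Finset.smul_sum, smul_smul]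
  left_inv z := by simp
  right_inv z := by simp

lemma shear_apply {N T : ℕ} (P : (Fin N → ℝ) ≃ₗ[ℝ] (Fin N → ℝ)) (q : Fin T → Fin N → ℝ)
    (z : (Fin N → ℝ) × (Fin T → ℝ)) : shear P q z = (P z.1 - ∑ j, z.2 j • q j, z.2) := rfl

/-- MODULE Position, relative to the statements of `marginal` and `simplex_position`. -/
theorem good_position_of (η : ℝ) (hη : 0 < η)
    (hmarg : ∃ c : ℝ, 0 < c ∧ ∃ n₀ : ℕ, ∀ (n N T : ℕ),
    n = N + T → n₀ ≤ n → 0 < T → (T : ℝ) ^ 2 ≤ Real.log n → ∀ (K : Set (Fin n → ℝ)),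
    Convex ℝ K → IsCompact K → (interior K).Nonempty →
    ∃ L : (Fin n → ℝ) ≃ₗ[ℝ] ((Fin N → ℝ) × (Fin T → ℝ)), ∀ y : Fin T → ℝ, (∀ i, |y i| ≤ 3) →
      c * (((1 + η) * √(2 * Real.pi))⁻¹) ^ T * Real.exp (-(∑ i, y i ^ 2) / 2)
        * (volume (L '' K)).toReal ≤ (volume (sec (L '' K) y)).toReal)
    (simplex_position : ∀ {N : ℕ} (A : Set (Fin N → ℝ)) (hA : Convex ℝ A) (hc : IsCompact A)
    (hv : 0 < volume A),
      ∃ (P : (Fin N → ℝ) ≃ₗ[ℝ] (Fin N → ℝ)) (b : Fin N → ℝ),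
      (0 : Fin N → ℝ) ∈ (fun x => P x + b) '' A ∧
      (∀ i, (Pi.single i 1 : Fin N → ℝ) ∈ (fun x => P x + b) '' A) ∧
      (∀ x ∈ (fun x => P x + b) '' A, ∀ i, |x i| ≤ 1)) :
    ∃ c : ℝ, 0 < c ∧ ∃ n₀ : ℕ,
    ∀ (n N T : ℕ), n = N + T → n₀ ≤ n → 0 < N → 0 < T → (T : ℝ) ^ 2 ≤ Real.log n →
    ∀ (K : Set (Fin n → ℝ)), Convex ℝ K → IsCompact K → (interior K).Nonempty →
    ∃ (L : (Fin n → ℝ) ≃ₗ[ℝ] ((Fin N → ℝ) × (Fin T → ℝ))) (x₀ : (Fin N → ℝ) × (Fin T → ℝ))
      (Q : Set ((Fin N → ℝ) × (Fin T → ℝ))), Q = (fun x => L x + x₀) '' K ∧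
      ((0, 0) ∈ Q ∧ (∀ i, ((Pi.single i 1 : Fin N → ℝ), (0 : Fin T → ℝ)) ∈ Q) ∧
        (∀ j, ((0 : Fin N → ℝ), (Pi.single j 1 : Fin T → ℝ)) ∈ Q)) ∧
      (∀ y : Fin T → ℝ, (∀ i, |y i| ≤ 11 / 5) → HasCube (1 / (4 * N)) (sec Q y) ∧
        (∀ x ∈ sec Q y, ∀ x' ∈ sec Q y, ∀ i, |x i - x' i| ≤ 4)) ∧
      (∀ y : Fin T → ℝ, (∀ i, |y i| ≤ 3) →
        c * (((1 + η) * √(2 * Real.pi))⁻¹) ^ T * Real.exp (-(∑ i, y i ^ 2) / 2)
          * (volume Q).toReal ≤ (volume (sec Q y)).toReal) := by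
  classical
  obtain ⟨c, hc, n₀, hmarg⟩ := hmarg
  refine ⟨c, hc, n₀, ?_⟩
  intro n N T hn hn₀ hN hT hTlog K hKc hK hKi
  have hN' : (0 : ℝ) < N := by exact_mod_cast hN
  obtain ⟨L₁, hL₁⟩ := hmarg n N T hn hn₀ hT hTlog K hKc hK hKi
  set α : ℝ := (((1 + η) * √(2 * Real.pi))⁻¹) ^ T with hα
  have hα0 : 0 < α := by positivity
  -- the first image
  have hL₁cont : Continuous L₁ := L₁.toLinearMap.continuous_of_finiteDimensional
  set Q₁ : Set ((Fin N → ℝ) × (Fin T → ℝ)) := L₁ '' K with hQ₁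
  have hQ₁c : Convex ℝ Q₁ := hKc.linear_image L₁.toLinearMap
  have hQ₁K : IsCompact Q₁ := hK.image hL₁cont
  have hv₁ : 0 < volume Q₁ := by
    have h2 : L₁ '' (interior K) ⊆ interior (L₁ '' K) :=
      (L₁.toContinuousLinearEquiv.toHomeomorph.image_interior K).subset
    exact Measure.measure_pos_of_nonempty_interior _ ((hKi.image _).mono h2)
  have hv₁' : 0 < (volume Q₁).toReal := ENNReal.toReal_pos hv₁.ne' hQ₁K.measure_lt_top.ne
  have hsecpos : ∀ y : Fin T → ℝ, (∀ i, |y i| ≤ 3) → 0 < volume (sec Q₁ y) := by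
    intro y hy
    have h := hL₁ y hy
    have h2 : 0 < (volume (sec Q₁ y)).toReal := lt_of_lt_of_le (by positivity) h
    exact (ENNReal.toReal_pos_iff.mp h2).1
  -- simplex position of the central section
  obtain ⟨P, b, hP0, hPe, hPb⟩ := simplex_position (sec Q₁ 0) (convex_sec hQ₁c 0)
    (isCompact_sec hQ₁K 0) (hsecpos 0 (by simp))
  -- points in the sections at the basis vectors
  have hq : ∀ j : Fin T, ∃ q : Fin N → ℝ, ∃ x ∈ sec Q₁ (Pi.single j 1), P x + b = q := by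
    intro j
    have h1 : 0 < volume (sec Q₁ (Pi.single j 1)) := by
      apply hsecpos
      intro i
      by_cases hij : i = j
      · subst hij; simp
      · rw [Pi.single_eq_of_ne hij]; simp
    obtain ⟨x, hx⟩ := nonempty_of_measure_ne_zero h1.ne'
    exact ⟨_, x, hx, rfl⟩
  choose q xq hxq hPxq using hq
  obtain ⟨L₂, hL₂a⟩ : ∃ L₂ : ((Fin N → ℝ) × (Fin T → ℝ)) ≃ₗ[ℝ] ((Fin N → ℝ) × (Fin T → ℝ)),
      ∀ z, L₂ z = (P z.1 - ∑ j, z.2 j • q j, z.2) := ⟨shear P q, fun z => rfl⟩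
  set x₀ : (Fin N → ℝ) × (Fin T → ℝ) := (b, 0) with hx₀
  set Q : Set ((Fin N → ℝ) × (Fin T → ℝ)) := (fun x => (L₁.trans L₂) x + x₀) '' K with hQ
  have hQQ₁ : Q = (fun z => L₂ z + x₀) '' Q₁ := by
    rw [hQ, hQ₁, Set.image_image]; rfl
  have hQc : Convex ℝ Q := by
    have h1 : Convex ℝ (L₂ '' Q₁) := hQ₁c.linear_image L₂.toLinearMap
    have h2 := h1.translate x₀
    have h3 : Q = (fun z => x₀ + z) '' (L₂ '' Q₁) := by
      rw [hQQ₁, Set.image_image (fun z => x₀ + z) L₂ Q₁]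
      apply Set.image_congr
      intro z _
      exact add_comm _ _
    rw [h3]; exact h2
  have hL₂cont : Continuous L₂ := L₂.toLinearMap.continuous_of_finiteDimensional
  have hQK : IsCompact Q := by
    rw [hQQ₁]
    exact hQ₁K.image (hL₂cont.add continuous_const)
  -- sections of `Q`
  have hsec : ∀ y : Fin T → ℝ, sec Q y =
      (fun x => P x + (b - ∑ j, y j • q j)) '' (sec Q₁ y) := by
    intro y
    ext x
    constructor
    · intro hx
      have hx' : (x, y) ∈ Q := hx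
      rw [hQQ₁] at hx'
      obtain ⟨z, hz, hzx⟩ := hx'
      simp only [hL₂a, hx₀, Prod.mk_add_mk, add_zero, Prod.mk.injEq] at hzx
      obtain ⟨h1, h2⟩ := hzx
      refine ⟨z.1, ?_, ?_⟩
      · show (z.1, y) ∈ Q₁
        rw [← h2]; exact hz
      · rw [← h1, ← h2]; abel_nf
    · rintro ⟨w, hw, rfl⟩
      show (_, y) ∈ Q
      rw [hQQ₁]
      refine ⟨(w, y), hw, ?_⟩
      simp only [hL₂a, hx₀, Prod.mk_add_mk, add_zero, Prod.mk.injEq, and_true]
      abel
  have hsec0 : sec Q 0 = (fun x => P x + b) '' (sec Q₁ 0) := by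
    rw [hsec]; simp
  -- volumes
  have hvolsec : ∀ y : Fin T → ℝ, volume (sec Q y) =
      ENNReal.ofReal |LinearMap.det (P : (Fin N → ℝ) →ₗ[ℝ] (Fin N → ℝ))| * volume (sec Q₁ y) := by
    intro y
    have h1 : (fun x => P x + (b - ∑ j, y j • q j)) '' (sec Q₁ y) =
        (fun x => x + (b - ∑ j, y j • q j)) '' (P '' (sec Q₁ y)) := by
      rw [Set.image_image]
    rw [hsec, h1, Set.image_add_right, measure_preimage_add_right]
    exact Measure.addHaar_image_linearMap volume (P : (Fin N → ℝ) →ₗ[ℝ] (Fin N → ℝ)) _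
  have hint : ∀ S : Set ((Fin N → ℝ) × (Fin T → ℝ)), IsCompact S →
      volume S = ∫⁻ y, volume (sec S y) := by
    intro S hS
    rw [Measure.volume_eq_prod, Measure.prod_apply_symm hS.measurableSet]
    rfl
  have hvol : volume Q =
      ENNReal.ofReal |LinearMap.det (P : (Fin N → ℝ) →ₗ[ℝ] (Fin N → ℝ))| * volume Q₁ := by
    rw [hint Q hQK, hint Q₁ hQ₁K]
    simp only [hvolsec]
    rw [lintegral_const_mul' _ _ ENNReal.ofReal_ne_top]
  set δ := |LinearMap.det (P : (Fin N → ℝ) →ₗ[ℝ] (Fin N → ℝ))| with hδ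
  have hδ0 : 0 < δ := abs_pos.mpr (LinearEquiv.isUnit_det' P).ne_zero
  have hsecQ : ∀ y : Fin T → ℝ, (∀ i, |y i| ≤ 3) →
        c * α * Real.exp (-(∑ i, y i ^ 2) / 2)
          * (volume Q).toReal ≤ (volume (sec Q y)).toReal := by
    intro y hy
    have h := hL₁ y hy
    rw [hvol, hvolsec, ENNReal.toReal_mul, ENNReal.toReal_mul, ENNReal.toReal_ofReal hδ0.le]
    calc c * α * Real.exp (-(∑ i, y i ^ 2) / 2) * (δ * (volume Q₁).toReal)
        = δ * (c * α * Real.exp (-(∑ i, y i ^ 2) / 2) * (volume Q₁).toReal) := by ring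
      _ ≤ _ := by gcongr
  have hne : ∀ y : Fin T → ℝ, (∀ i, |y i| ≤ 3) → (sec Q y).Nonempty := by
    intro y hy
    rw [hsec]
    exact (nonempty_of_measure_ne_zero (hsecpos y hy).ne').image _
  -- the points
  have h00 : ((0 : Fin N → ℝ), (0 : Fin T → ℝ)) ∈ Q := by
    have : (0 : Fin N → ℝ) ∈ sec Q 0 := by rw [hsec0]; exact hP0
    exact this
  have hei : ∀ i, ((Pi.single i 1 : Fin N → ℝ), (0 : Fin T → ℝ)) ∈ Q := by
    intro i
    have : (Pi.single i 1 : Fin N → ℝ) ∈ sec Q 0 := by rw [hsec0]; exact hPe i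
    exact this
  have hej : ∀ j, ((0 : Fin N → ℝ), (Pi.single j 1 : Fin T → ℝ)) ∈ Q := by
    intro j
    have : (0 : Fin N → ℝ) ∈ sec Q (Pi.single j 1) := by
      rw [hsec]
      refine ⟨xq j, hxq j, ?_⟩
      have h1 : ∑ k, (Pi.single j 1 : Fin T → ℝ) k • q k = q j := by
        simp [Pi.single_apply]
      simp only [h1]
      rw [← hPxq j]; abel
    exact this
  refine ⟨L₁.trans L₂, x₀, Q, rfl, ⟨h00, hei, hej⟩, ?_, hsecQ⟩
  intro y hy
  constructor
  · -- a cube in the section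
    obtain ⟨w, hw⟩ := hne (fun i => (4 / 3) * y i) (by
      intro i
      rw [abs_mul, abs_of_pos (by norm_num : (0 : ℝ) < 4 / 3)]
      have := hy i
      linarith)
    refine ⟨(3 / 4 : ℝ) • w, ?_⟩
    intro u hu
    have h1 : (4 : ℝ) • u ∈ sec Q 0 := by
      apply cube_subset hN (convex_sec hQc 0) h00 hei
      intro i
      have h2 := hu i
      constructor
      · simpa using h2.1
      · simp only [Pi.smul_apply, smul_eq_mul]
        have h3 : (1 : ℝ) / N = 4 * (1 / (4 * N)) := by field_simp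
        rw [h3]; linarith [h2.2]
    have h4 := hQc hw h1 (by norm_num : (0 : ℝ) ≤ 3 / 4) (by norm_num : (0 : ℝ) ≤ 1 / 4)
      (by norm_num)
    show (_, y) ∈ Q
    convert h4 using 1
    ext i
    · simp [smul_smul]
    · simp only [Prod.smul_mk, Prod.mk_add_mk, smul_zero, add_zero, Pi.smul_apply, smul_eq_mul]
      ring
  · -- the diameter
    intro x hx x' hx' i
    obtain ⟨w, hw⟩ := hne (-y) (by
      intro i
      rw [Pi.neg_apply, abs_neg]
      have := hy i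
      linarith)
    have key : ∀ x ∈ sec Q y, |x i + w i| ≤ 2 := by
      intro x hx
      have h1 := hQc hx hw (by norm_num : (0 : ℝ) ≤ 1 / 2) (by norm_num : (0 : ℝ) ≤ 1 / 2)
        (by norm_num)
      have h2 : (1 / 2 : ℝ) • x + (1 / 2 : ℝ) • w ∈ sec Q 0 := by
        show (_, (0 : Fin T → ℝ)) ∈ Q
        convert h1 using 1
        ext k
        · simp
        · simp
      rw [hsec0] at h2
      have h3 := hPb _ h2 i
      simp only [Pi.add_apply, Pi.smul_apply, smul_eq_mul] at h3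
      rw [← mul_add, abs_mul, abs_of_pos (by norm_num : (0 : ℝ) < 1 / 2)] at h3
      linarith
    have h1 := key x hx
    have h2 := key x' hx'
    have h3 : x i - x' i = (x i + w i) - (x' i + w i) := by ring
    rw [h3]
    exact (abs_sub _ _).trans (by linarith)

end Vale.P230
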