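import Vale.Agent.Lib.P230.Defs
import Vale.Agent.Lib.P226.PL

/-!
# P230, module Young: a Young type inequality with constant `< 1`.
-/

open MeasureTheory ProbabilityTheory Set Filter Topology
open scoped ENNReal Pointwise

namespace Vale.P230

lemma tendsto_lint_Iic {F : ℝ → ℝ≥0∞} (hF : Measurable F) (h1 : ∫⁻ x, F x ≠ ∞) (l : Filter ℝ)
    [l.IsCountablyGenerated] (g : ℝ → ℝ≥0∞)
    (hlim : ∀ᵐ x, Tendsto (fun t => (Iic t).indicator F x) l (𝓝 (g x))) :
    Tendsto (fun t => ∫⁻ x in Iic t, F x) l (𝓝 (∫⁻ x, g x)) := by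
  have h := tendsto_lintegral_filter_of_dominated_convergence (μ := (volume : Measure ℝ)) (l := l)
    (F := fun t => (Iic t).indicator F) (f := g) F
    (Eventually.of_forall fun t => hF.indicator measurableSet_Iic)
    (Eventually.of_forall fun t => Eventually.of_forall fun x => indicator_le_self' (by simp) x)
    h1 hlim
  refine h.congr fun t => ?_
  rw [lintegral_indicator measurableSet_Iic]

lemma exists_median {F : ℝ → ℝ≥0∞} (hF : Measurable F) (h1 : ∫⁻ x, F x = 1) :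
    ∃ m : ℝ, ∫⁻ x in Iio m, F x = 1 / 2 ∧ ∫⁻ x in Ici m, F x = 1 / 2 := by
  have hne : ∫⁻ x, F x ≠ ∞ := by rw [h1]; simp
  have hcont : Continuous (fun t => ∫⁻ x in Iic t, F x) := by
    rw [continuous_iff_continuousAt]
    intro t0
    have := tendsto_lint_Iic hF hne (𝓝 t0) ((Iic t0).indicator F) ?_
    · rw [lintegral_indicator measurableSet_Iic] at this
      exact this
    · have hae : ∀ᵐ x : ℝ, x ≠ t0 := by
        simp [ae_iff]
      filter_upwards [hae] with x hx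
      rcases lt_or_gt_of_ne hx with h | h
      · refine tendsto_const_nhds.congr' ?_
        filter_upwards [Ioi_mem_nhds h] with t ht
        rw [indicator_of_mem (mem_Iic.2 h.le), indicator_of_mem (mem_Iic.2 (le_of_lt ht))]
      · refine tendsto_const_nhds.congr' ?_
        filter_upwards [Iio_mem_nhds h] with t ht
        rw [indicator_of_notMem (by simpa using h), indicator_of_notMem (by simpa using ht)]
  have hbot : Tendsto (fun t => ∫⁻ x in Iic t, F x) atBot (𝓝 0) := by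
    have := tendsto_lint_Iic hF hne atBot 0 ?_
    · simpa using this
    · refine Eventually.of_forall fun x => ?_
      refine tendsto_const_nhds.congr' ?_
      filter_upwards [eventually_lt_atBot x] with t ht
      rw [indicator_of_notMem (by simpa using ht)]
      rfl
  have htop : Tendsto (fun t => ∫⁻ x in Iic t, F x) atTop (𝓝 1) := by
    have := tendsto_lint_Iic hF hne atTop F ?_
    · rw [h1] at this; exact this
    · refine Eventually.of_forall fun x => ?_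
      refine tendsto_const_nhds.congr' ?_
      filter_upwards [eventually_ge_atTop x] with t ht
      rw [indicator_of_mem (by simpa using ht)]
  obtain ⟨m, hm⟩ := mem_range_of_exists_le_of_exists_ge (c := (1 / 2 : ℝ≥0∞)) hcont
    ((hbot.eventually (ge_mem_nhds (by simp))).exists)
    ((htop.eventually (le_mem_nhds (by simp [ENNReal.inv_lt_one]))).exists)
  have hm' : ∫⁻ x in Iio m, F x = 1 / 2 := by
    rw [← hm]
    exact setLIntegral_congr Iio_ae_eq_Iic
  refine ⟨m, hm', ?_⟩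
  have h2 : (∫⁻ x in Iio m, F x) + (∫⁻ x in (Iio m)ᶜ, F x) = 1 := by
    rw [← h1]
    exact lintegral_add_compl F measurableSet_Iio
  rw [compl_Iio, hm'] at h2
  have h3 : (1 / 2 : ℝ≥0∞) + ∫⁻ x in Ici m, F x = 1 / 2 + 1 / 2 := by
    rw [h2, ENNReal.add_halves]
  exact (ENNReal.add_right_inj (by simp)).1 h3

lemma real_bc {α₁ α₂ β α₀ β₀ : ℝ} (h1 : 0 ≤ α₁) (h2 : 0 ≤ α₂) (h3 : 0 ≤ β) (h4 : 0 ≤ α₀)
    (h5 : 0 ≤ β₀) (ha : α₁ + α₂ + α₀ = 1) (hb : β + β + β₀ = 1) (h : α₂ + 1 / 4 ≤ α₁) :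
    √α₁ * √β + √α₂ * √β + √α₀ * √β₀ ≤ √(63 / 64) := by
  set x := √α₁
  set y := √α₂
  set b := √β
  set z := √α₀
  set c := √β₀
  have hx : x ^ 2 = α₁ := Real.sq_sqrt h1
  have hy : y ^ 2 = α₂ := Real.sq_sqrt h2
  have hbb : b ^ 2 = β := Real.sq_sqrt h3
  have hz : z ^ 2 = α₀ := Real.sq_sqrt h4
  have hc : c ^ 2 = β₀ := Real.sq_sqrt h5
  have hx0 : 0 ≤ x := Real.sqrt_nonneg _
  have hy0 : 0 ≤ y := Real.sqrt_nonneg _
  have hb0 : 0 ≤ b := Real.sqrt_nonneg _
  have hz0 : 0 ≤ z := Real.sqrt_nonneg _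
  have hc0 : 0 ≤ c := Real.sqrt_nonneg _
  apply Real.le_sqrt_of_sq_le
  -- (x b + y b + z c)² ≤ ((x+y)²/2 + z²)(2 b² + c²) = (x+y)²/2 + z² = 1 - (x-y)²/2
  have e1 : (x + y) ^ 2 / 2 + z ^ 2 = 1 - (x - y) ^ 2 / 2 := by nlinarith
  have e2 : (x * b + y * b + z * c) ^ 2 ≤ ((x + y) ^ 2 / 2 + z ^ 2) * (2 * b ^ 2 + c ^ 2) := by
    nlinarith [sq_nonneg ((x + y) * c / 2 - z * b), sq_nonneg ((x + y) * c - 2 * z * b)]
  have e3 : 2 * b ^ 2 + c ^ 2 = 1 := by nlinarith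
  rw [e3, mul_one, e1] at e2
  have e4 : 1 / 32 ≤ (x - y) ^ 2 := by
    have h6 : (x - y) * (x + y) ≥ 1 / 4 := by nlinarith
    have h7 : (x + y) ^ 2 ≤ 2 := by nlinarith [sq_nonneg (x - y)]
    have h8 : (1 / 4 : ℝ) ^ 2 ≤ ((x - y) * (x + y)) ^ 2 := by
      apply pow_le_pow_left₀ (by norm_num) h6
    nlinarith [sq_nonneg (x - y)]
  linarith

lemma lintegral_sqrt_mul_le {Ω : Type*} [MeasurableSpace Ω] (μ : Measure Ω) {a b : Ω → ℝ≥0∞}
    (ha : Measurable a) (hb : Measurable b) (S : Set Ω) :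
    ∫⁻ x in S, (a x * b x) ^ (1 / 2 : ℝ) ∂μ ≤
      (∫⁻ x in S, a x ∂μ) ^ (1 / 2 : ℝ) * (∫⁻ x in S, b x ∂μ) ^ (1 / 2 : ℝ) := by
  have h := ENNReal.lintegral_mul_le_Lp_mul_Lq (μ.restrict S) (p := 2) (q := 2)
    Real.HolderConjugate.two_two (f := fun x => a x ^ (1 / 2 : ℝ)) (g := fun x => b x ^ (1 / 2 : ℝ))
    (ha.pow_const _).aemeasurable (hb.pow_const _).aemeasurable
  have e : ∀ t : ℝ≥0∞, (t ^ (1 / 2 : ℝ)) ^ (2 : ℝ) = t := by
    intro t
    rw [← ENNReal.rpow_mul]; norm_num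
  simp only [e] at h
  refine le_trans (le_of_eq ?_) h
  refine lintegral_congr fun x => ?_
  rw [ENNReal.mul_rpow_of_nonneg _ _ (by norm_num)]
  rfl

lemma bc_bound {Ω : Type*} [MeasurableSpace Ω] (μ : Measure Ω) {a b : Ω → ℝ≥0∞}
    (ha : Measurable a) (hb : Measurable b)
    (ha1 : ∫⁻ x, a x ∂μ = 1) (hb1 : ∫⁻ x, b x ∂μ = 1) {S₁ S₂ : Set Ω}
    (hS₁ : MeasurableSet S₁) (hS₂ : MeasurableSet S₂) (hd : Disjoint S₁ S₂)
    (hbS : ∫⁻ x in S₁, b x ∂μ = ∫⁻ x in S₂, b x ∂μ)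
    (haS : (∫⁻ x in S₂, a x ∂μ) + 1 / 4 ≤ ∫⁻ x in S₁, a x ∂μ) :
    ∫⁻ x, (a x * b x) ^ (1 / 2 : ℝ) ∂μ ≤ ENNReal.ofReal (√(63 / 64)) := by
  have split : ∀ f : Ω → ℝ≥0∞, ∫⁻ x, f x ∂μ =
      (∫⁻ x in S₁, f x ∂μ) + (∫⁻ x in S₂, f x ∂μ) + (∫⁻ x in (S₁ ∪ S₂)ᶜ, f x ∂μ) := by
    intro f
    rw [← lintegral_union hS₂ hd, lintegral_add_compl _ (hS₁.union hS₂)]
  have hle : ∀ (f : Ω → ℝ≥0∞) (S : Set Ω), ∫⁻ x in S, f x ∂μ ≤ ∫⁻ x, f x ∂μ := fun f S =>
    setLIntegral_le_lintegral _ _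
  have fa : ∀ S : Set Ω, ∫⁻ x in S, a x ∂μ ≠ ∞ := fun S =>
    ne_top_of_le_ne_top (by rw [ha1]; simp) (hle a S)
  have fb : ∀ S : Set Ω, ∫⁻ x in S, b x ∂μ ≠ ∞ := fun S =>
    ne_top_of_le_ne_top (by rw [hb1]; simp) (hle b S)
  set α₁ := (∫⁻ x in S₁, a x ∂μ).toReal with hα₁
  set α₂ := (∫⁻ x in S₂, a x ∂μ).toReal with hα₂
  set α₀ := (∫⁻ x in (S₁ ∪ S₂)ᶜ, a x ∂μ).toReal with hα₀
  set β := (∫⁻ x in S₁, b x ∂μ).toReal with hβ
  set β₀ := (∫⁻ x in (S₁ ∪ S₂)ᶜ, b x ∂μ).toReal with hβ₀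
  have ea : α₁ + α₂ + α₀ = 1 := by
    have := congrArg ENNReal.toReal (split a)
    rw [ha1, ENNReal.toReal_add (ENNReal.add_ne_top.2 ⟨fa _, fa _⟩) (fa _),
      ENNReal.toReal_add (fa _) (fa _), ENNReal.toReal_one] at this
    exact this.symm
  have eb : β + β + β₀ = 1 := by
    have := congrArg ENNReal.toReal (split b)
    rw [hb1, ← hbS, ENNReal.toReal_add (ENNReal.add_ne_top.2 ⟨fb _, fb _⟩) (fb _),
      ENNReal.toReal_add (fb _) (fb _), ENNReal.toReal_one] at this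
    exact this.symm
  have eh : α₂ + 1 / 4 ≤ α₁ := by
    have := ENNReal.toReal_mono (fa _) haS
    rw [ENNReal.toReal_add (fa _) (by simp)] at this
    simpa using this
  have hreal := real_bc (ENNReal.toReal_nonneg) (ENNReal.toReal_nonneg) (ENNReal.toReal_nonneg)
    (ENNReal.toReal_nonneg) (ENNReal.toReal_nonneg) ea eb eh
  have conv : ∀ S : Set Ω, (∫⁻ x in S, a x ∂μ) ^ (1 / 2 : ℝ) * (∫⁻ x in S, b x ∂μ) ^ (1 / 2 : ℝ)
      = ENNReal.ofReal (√(∫⁻ x in S, a x ∂μ).toReal * √(∫⁻ x in S, b x ∂μ).toReal) := by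
    intro S
    rw [ENNReal.ofReal_mul (Real.sqrt_nonneg _), Real.sqrt_eq_rpow, Real.sqrt_eq_rpow,
      ← ENNReal.ofReal_rpow_of_nonneg ENNReal.toReal_nonneg (by norm_num),
      ← ENNReal.ofReal_rpow_of_nonneg ENNReal.toReal_nonneg (by norm_num),
      ENNReal.ofReal_toReal (fa S), ENNReal.ofReal_toReal (fb S)]
  rw [split]
  calc _ ≤ ENNReal.ofReal (√α₁ * √β) + ENNReal.ofReal (√α₂ * √β)
        + ENNReal.ofReal (√α₀ * √β₀) := by
        refine add_le_add (add_le_add ?_ ?_) ?_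
        · exact (lintegral_sqrt_mul_le μ ha hb S₁).trans_eq (conv S₁)
        · refine (lintegral_sqrt_mul_le μ ha hb S₂).trans_eq ((conv S₂).trans ?_)
          rw [hβ, hbS]
        · exact (lintegral_sqrt_mul_le μ ha hb _).trans_eq (conv _)
    _ = ENNReal.ofReal (√α₁ * √β + √α₂ * √β + √α₀ * √β₀) := by
        rw [ENNReal.ofReal_add (by positivity) (by positivity),
          ENNReal.ofReal_add (by positivity) (by positivity)]
    _ ≤ _ := ENNReal.ofReal_le_ofReal hreal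

/-- Hölder step. -/
lemma holder_third {Ω : Type*} [MeasurableSpace Ω] (μ : Measure Ω) {a b c : Ω → ℝ≥0∞}
    (ha : Measurable a) (hb : Measurable b) (hc : Measurable c)
    (hc1 : ∫⁻ x, c x ∂μ = 1) {K : ℝ} (hK : 0 ≤ K)
    (hab : ∫⁻ x, (a x * b x) ^ (1 / 2 : ℝ) ∂μ ≤ ENNReal.ofReal K) :
    ∫⁻ x, (a x * b x * c x) ^ (1 / 3 : ℝ) ∂μ ≤ ENNReal.ofReal (K ^ (2 / 3 : ℝ)) := by
  have h := ENNReal.lintegral_mul_le_Lp_mul_Lq μ (p := 3 / 2) (q := 3)
    (by constructor <;> norm_num)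
    (f := fun x => (a x * b x) ^ (1 / 3 : ℝ)) (g := fun x => c x ^ (1 / 3 : ℝ))
    ((ha.mul hb).pow_const _).aemeasurable (hc.pow_const _).aemeasurable
  have e1 : ∀ t : ℝ≥0∞, (t ^ (1 / 3 : ℝ)) ^ (3 / 2 : ℝ) = t ^ (1 / 2 : ℝ) := by
    intro t
    rw [← ENNReal.rpow_mul]; norm_num
  have e2 : ∀ t : ℝ≥0∞, (t ^ (1 / 3 : ℝ)) ^ (3 : ℝ) = t := by
    intro t
    rw [← ENNReal.rpow_mul]; norm_num
  simp only [e1, e2, hc1, ENNReal.one_rpow, mul_one] at h
  calc _ = ∫⁻ x, ((fun x => (a x * b x) ^ (1 / 3 : ℝ)) * fun x => c x ^ (1 / 3 : ℝ)) x ∂μ := by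
        refine lintegral_congr fun x => ?_
        rw [ENNReal.mul_rpow_of_nonneg _ _ (by norm_num)]
        rfl
    _ ≤ _ := h
    _ ≤ (ENNReal.ofReal K) ^ (1 / (3 / 2) : ℝ) := ENNReal.rpow_le_rpow hab (by norm_num)
    _ = _ := by
        rw [ENNReal.ofReal_rpow_of_nonneg hK (by norm_num)]
        norm_num

/-- `∫∫_{A × B} F(x) G(y)`. -/
lemma int_prod_set {F G : ℝ → ℝ≥0∞} (hF : Measurable F) (hG : Measurable G) (A B : Set ℝ) :
    ∫⁻ p in A ×ˢ B, F p.1 * G p.2 = (∫⁻ x in A, F x) * (∫⁻ y in B, G y) := by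
  rw [Measure.volume_eq_prod, ← Measure.prod_restrict, lintegral_prod_mul hF.aemeasurable
    hG.aemeasurable]

/-- `∫∫_{x ∈ A, x + y ∈ B} F(x) H(x+y)`. -/
lemma int_shear {F H : ℝ → ℝ≥0∞} (hF : Measurable F) (hH : Measurable H) {A B : Set ℝ}
    (hA : MeasurableSet A) (hB : MeasurableSet B) :
    ∫⁻ p in {p : ℝ × ℝ | p.1 ∈ A ∧ p.1 + p.2 ∈ B}, F p.1 * H (p.1 + p.2) =
      (∫⁻ x in A, F x) * (∫⁻ y in B, H y) := by
  have mp : MeasurePreserving (fun z : ℝ × ℝ => (z.1, z.1 + z.2)) volume volume :=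
    measurePreserving_prod_add volume volume
  rw [← int_prod_set hF hH]
  have h := mp.setLIntegral_comp_preimage (hA.prod hB)
    (f := fun p : ℝ × ℝ => F p.1 * H p.2) (by fun_prop)
  exact h

/-- `∫∫_{y ∈ A, x + y ∈ B} G(y) H(x+y)`. -/
lemma int_shear' {G H : ℝ → ℝ≥0∞} (hG : Measurable G) (hH : Measurable H) {A B : Set ℝ}
    (hA : MeasurableSet A) (hB : MeasurableSet B) :
    ∫⁻ p in {p : ℝ × ℝ | p.2 ∈ A ∧ p.1 + p.2 ∈ B}, G p.2 * H (p.1 + p.2) =
      (∫⁻ x in A, G x) * (∫⁻ y in B, H y) := by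
  have mp : MeasurePreserving (fun z : ℝ × ℝ => (z.2, z.1 + z.2)) volume volume :=
    measurePreserving_prod_add_swap_right volume volume
  rw [← int_prod_set hG hH]
  have h := mp.setLIntegral_comp_preimage (hA.prod hB)
    (f := fun p : ℝ × ℝ => G p.1 * H p.2) (by fun_prop)
  exact h

lemma rpow_aux (f g h : ℝ≥0∞) :
    (f * g * h) ^ (2 / 3 : ℝ) = ((f * g) * (f * h) * (g * h)) ^ (1 / 3 : ℝ) := by
  have e : (f * g) * (f * h) * (g * h) = (f * g * h) ^ (2 : ℝ) := by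
    rw [ENNReal.rpow_two]; ring
  rw [e, ← ENNReal.rpow_mul]
  norm_num

/-- normalised one dimensional inequality -/
lemma young_one_normalized {F G H : ℝ → ℝ≥0∞} (hF : Measurable F) (hG : Measurable G)
    (hH : Measurable H) (iF : ∫⁻ x, F x = 1) (iG : ∫⁻ x, G x = 1) (iH : ∫⁻ x, H x = 1) :
    ∫⁻ p : ℝ × ℝ, (F p.1 * G p.2 * H (p.1 + p.2)) ^ (2 / 3 : ℝ) ≤
      ENNReal.ofReal (√(63 / 64) ^ (2 / 3 : ℝ)) := by
  obtain ⟨mX, hX1, hX2⟩ := exists_median hF iF
  obtain ⟨mY, hY1, hY2⟩ := exists_median hG iG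
  set m := mX + mY with hm
  set a : ℝ × ℝ → ℝ≥0∞ := fun p => F p.1 * G p.2 with ha
  set b : ℝ × ℝ → ℝ≥0∞ := fun p => F p.1 * H (p.1 + p.2) with hb
  set c : ℝ × ℝ → ℝ≥0∞ := fun p => G p.2 * H (p.1 + p.2) with hc
  have ma : Measurable a := by fun_prop
  have mb : Measurable b := by fun_prop
  have mc : Measurable c := by fun_prop
  have ia : ∫⁻ p, a p = 1 := by
    have := int_prod_set hF hG univ univ
    simpa [iF, iG] using this
  have ib : ∫⁻ p, b p = 1 := by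
    have := int_shear hF hH MeasurableSet.univ MeasurableSet.univ
    simpa [iF, iH] using this
  have ic : ∫⁻ p, c p = 1 := by
    have := int_shear' hG hH MeasurableSet.univ MeasurableSet.univ
    simpa [iG, iH] using this
  set S₁ : Set (ℝ × ℝ) := {p | p.1 ∈ Ici mX ∧ p.1 + p.2 ∈ Ici m} with hS₁
  set S₂ : Set (ℝ × ℝ) := {p | p.1 ∈ Iio mX ∧ p.1 + p.2 ∈ Ici m} with hS₂
  set T₁ : Set (ℝ × ℝ) := {p | p.2 ∈ Ici mY ∧ p.1 + p.2 ∈ Ici m} with hT₁
  set T₂ : Set (ℝ × ℝ) := {p | p.2 ∈ Iio mY ∧ p.1 + p.2 ∈ Ici m} with hT₂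
  have mS₁ : MeasurableSet S₁ := (measurable_fst measurableSet_Ici).inter
    ((measurable_fst.add measurable_snd) measurableSet_Ici)
  have mS₂ : MeasurableSet S₂ := (measurable_fst measurableSet_Iio).inter
    ((measurable_fst.add measurable_snd) measurableSet_Ici)
  have mT₁ : MeasurableSet T₁ := (measurable_snd measurableSet_Ici).inter
    ((measurable_fst.add measurable_snd) measurableSet_Ici)
  have mT₂ : MeasurableSet T₂ := (measurable_snd measurableSet_Iio).inter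
    ((measurable_fst.add measurable_snd) measurableSet_Ici)
  have bS : ∫⁻ p in S₁, b p = ∫⁻ p in S₂, b p := by
    rw [hS₁, hS₂, int_shear hF hH measurableSet_Ici measurableSet_Ici,
      int_shear hF hH measurableSet_Iio measurableSet_Ici, hX1, hX2]
  have cT : ∫⁻ p in T₁, c p = ∫⁻ p in T₂, c p := by
    rw [hT₁, hT₂, int_shear' hG hH measurableSet_Ici measurableSet_Ici,
      int_shear' hG hH measurableSet_Iio measurableSet_Ici, hY1, hY2]
  have dS : Disjoint S₁ S₂ := by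
    rw [Set.disjoint_left]
    rintro p ⟨h1, -⟩ ⟨h2, -⟩
    exact absurd (mem_Ici.1 h1) (not_le.2 h2)
  have dT : Disjoint T₁ T₂ := by
    rw [Set.disjoint_left]
    rintro p ⟨h1, -⟩ ⟨h2, -⟩
    exact absurd (mem_Ici.1 h1) (not_le.2 h2)
  have aP : ∫⁻ p in Ici mX ×ˢ Ici mY, a p = 1 / 4 := by
    rw [ha, int_prod_set hF hG, hX2, hY2]
    have e : (1 / 2 : ℝ≥0∞) = ENNReal.ofReal (1 / 2) := by
      rw [ENNReal.ofReal_div_of_pos (by norm_num)]; simp
    have e' : (1 / 4 : ℝ≥0∞) = ENNReal.ofReal (1 / 4) := by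
      rw [ENNReal.ofReal_div_of_pos (by norm_num)]; simp
    rw [e, e', ← ENNReal.ofReal_mul (by norm_num)]
    norm_num
  have eS₁ : S₁ = (Ici mX ×ˢ Ici mY) ∪ T₂ := by
    ext p
    simp only [hS₁, hT₂, mem_ofPred_eq, mem_union, mem_prod, mem_Ici, mem_Iio, hm]
    constructor
    · rintro ⟨h1, h2⟩
      by_cases h3 : mY ≤ p.2
      · exact Or.inl ⟨h1, h3⟩
      · exact Or.inr ⟨not_le.1 h3, h2⟩
    · rintro (⟨h1, h2⟩ | ⟨h1, h2⟩)
      · exact ⟨h1, by linarith⟩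
      · exact ⟨by linarith, h2⟩
  have eT₁ : T₁ = (Ici mX ×ˢ Ici mY) ∪ S₂ := by
    ext p
    simp only [hT₁, hS₂, mem_ofPred_eq, mem_union, mem_prod, mem_Ici, mem_Iio, hm]
    constructor
    · rintro ⟨h1, h2⟩
      by_cases h3 : mX ≤ p.1
      · exact Or.inl ⟨h3, h1⟩
      · exact Or.inr ⟨not_le.1 h3, h2⟩
    · rintro (⟨h1, h2⟩ | ⟨h1, h2⟩)
      · exact ⟨h2, by linarith⟩
      · exact ⟨by linarith, h2⟩
  have aS₁ : ∫⁻ p in S₁, a p = 1 / 4 + ∫⁻ p in T₂, a p := by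
    rw [eS₁, lintegral_union mT₂, aP]
    rw [Set.disjoint_left]
    rintro p ⟨-, h1⟩ ⟨h2, -⟩
    exact absurd (mem_Ici.1 h1) (not_le.2 h2)
  have aT₁ : ∫⁻ p in T₁, a p = 1 / 4 + ∫⁻ p in S₂, a p := by
    rw [eT₁, lintegral_union mS₂, aP]
    rw [Set.disjoint_left]
    rintro p ⟨h1, -⟩ ⟨h2, -⟩
    exact absurd (mem_Ici.1 h1) (not_le.2 h2)
  have hsq : 0 ≤ √(63 / 64 : ℝ) := Real.sqrt_nonneg _
  rcases le_total (∫⁻ p in S₂, a p) (∫⁻ p in T₂, a p) with h | h
  · have hbc := bc_bound volume ma mb ia ib mS₁ mS₂ dS bS (by rw [aS₁, add_comm]; gcongr)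
    refine le_trans (le_of_eq ?_) (holder_third volume ma mb mc ic hsq hbc)
    refine lintegral_congr fun p => ?_
    exact rpow_aux _ _ _
  · have hbc := bc_bound volume ma mc ia ic mT₁ mT₂ dT cT (by rw [aT₁, add_comm]; gcongr)
    refine le_trans (le_of_eq ?_) (holder_third volume ma mc mb ib hsq hbc)
    refine lintegral_congr fun p => ?_
    rw [rpow_aux]
    congr 1
    simp only [ha, hb, hc]
    ring

/-- the constant -/
noncomputable def rho1 : ℝ := √(63 / 64) ^ (2 / 3 : ℝ)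

lemma rho1_pos : 0 < rho1 := by
  unfold rho1
  exact Real.rpow_pos_of_pos (Real.sqrt_pos.2 (by norm_num)) _

lemma rho1_lt_one : rho1 < 1 := by
  unfold rho1
  refine Real.rpow_lt_one (Real.sqrt_nonneg _) ?_ (by norm_num)
  rw [Real.sqrt_lt' one_pos]
  norm_num

/-- one dimensional inequality -/
lemma young_one {F G H : ℝ → ℝ≥0∞} (hF : Measurable F) (hG : Measurable G)
    (hH : Measurable H) :
    ∫⁻ x : ℝ, ∫⁻ y : ℝ, (F x * G y * H (x + y)) ^ (2 / 3 : ℝ) ≤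
      ENNReal.ofReal rho1 * ((∫⁻ x, F x) * (∫⁻ x, G x) * (∫⁻ x, H x)) ^ (2 / 3 : ℝ) := by
  set IF := ∫⁻ x, F x with hIF
  set IG := ∫⁻ x, G x with hIG
  set IH := ∫⁻ x, H x with hIH
  have hρ : ENNReal.ofReal rho1 ≠ 0 := by
    rw [Ne, ENNReal.ofReal_eq_zero, not_le]; exact rho1_pos
  -- zero cases
  by_cases zF : IF = 0
  · have h0 : F =ᵐ[volume] 0 := (lintegral_eq_zero_iff hF).1 zF
    refine le_trans (le_of_eq ?_) zero_le
    rw [lintegral_eq_zero_iff (by fun_prop)]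
    filter_upwards [h0] with x hx
    simp [hx]
  by_cases zG : IG = 0
  · have h0 : G =ᵐ[volume] 0 := (lintegral_eq_zero_iff hG).1 zG
    refine le_trans (le_of_eq ?_) zero_le
    rw [lintegral_eq_zero_iff (by fun_prop)]
    refine Eventually.of_forall fun x => ?_
    simp only [Pi.zero_apply]
    rw [lintegral_eq_zero_iff (by fun_prop)]
    filter_upwards [h0] with y hy
    simp [hy]
  by_cases zH : IH = 0
  · refine le_trans (le_of_eq ?_) zero_le
    rw [lintegral_eq_zero_iff (by fun_prop)]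
    refine Eventually.of_forall fun x => ?_
    simp only [Pi.zero_apply]
    rw [lintegral_eq_zero_iff (by fun_prop)]
    have h1 : ∫⁻ y, H (x + y) = 0 := by
      rw [lintegral_add_left_eq_self]; exact zH
    have h0 := (lintegral_eq_zero_iff (by fun_prop)).1 h1
    filter_upwards [h0] with y hy
    simp only [Pi.zero_apply] at hy
    simp [hy]
  by_cases tI : IF * IG * IH = ∞
  · rw [tI]
    rw [ENNReal.top_rpow_of_pos (by norm_num), ENNReal.mul_top hρ]
    exact le_top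
  have tF : IF ≠ ∞ := by
    intro h
    apply tI
    rw [h, ENNReal.top_mul zG, ENNReal.top_mul zH]
  have tG : IG ≠ ∞ := by
    intro h
    apply tI
    rw [h, ENNReal.mul_top zF, ENNReal.top_mul zH]
  have tH : IH ≠ ∞ := by
    intro h
    apply tI
    rw [h, ENNReal.mul_top (mul_ne_zero zF zG)]
  have key := young_one_normalized (F := fun x => IF⁻¹ * F x) (G := fun x => IG⁻¹ * G x)
    (H := fun x => IH⁻¹ * H x) (by fun_prop) (by fun_prop) (by fun_prop)
    (by rw [lintegral_const_mul _ hF, ← hIF, ENNReal.inv_mul_cancel zF tF])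
    (by rw [lintegral_const_mul _ hG, ← hIG, ENNReal.inv_mul_cancel zG tG])
    (by rw [lintegral_const_mul _ hH, ← hIH, ENNReal.inv_mul_cancel zH tH])
  have e1 : ∫⁻ x : ℝ, ∫⁻ y : ℝ, (F x * G y * H (x + y)) ^ (2 / 3 : ℝ) =
      ∫⁻ p : ℝ × ℝ, (F p.1 * G p.2 * H (p.1 + p.2)) ^ (2 / 3 : ℝ) := by
    rw [Measure.volume_eq_prod, lintegral_prod _ (by fun_prop)]
  have e2 : ∀ p : ℝ × ℝ, (F p.1 * G p.2 * H (p.1 + p.2)) ^ (2 / 3 : ℝ) =
      (IF * IG * IH) ^ (2 / 3 : ℝ) *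
      (IF⁻¹ * F p.1 * (IG⁻¹ * G p.2) * (IH⁻¹ * H (p.1 + p.2))) ^ (2 / 3 : ℝ) := by
    intro p
    rw [← ENNReal.mul_rpow_of_nonneg _ _ (by norm_num)]
    congr 1
    calc F p.1 * G p.2 * H (p.1 + p.2) = (IF * IF⁻¹) * (IG * IG⁻¹) * (IH * IH⁻¹) *
          (F p.1 * G p.2 * H (p.1 + p.2)) := by
          rw [ENNReal.mul_inv_cancel zF tF, ENNReal.mul_inv_cancel zG tG,
            ENNReal.mul_inv_cancel zH tH]
          simp
      _ = _ := by ring
  rw [e1]
  simp_rw [e2]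
  rw [lintegral_const_mul _ (by fun_prop), mul_comm]
  gcongr
  exact key

/-- the inequality in all dimensions -/
lemma young_dim (N : ℕ) : ∀ {F G H : (Fin N → ℝ) → ℝ≥0∞}, Measurable F → Measurable G →
    Measurable H →
    ∫⁻ x, ∫⁻ y, (F x * G y * H (x + y)) ^ (2 / 3 : ℝ) ≤
      ENNReal.ofReal (rho1 ^ N) * ((∫⁻ x, F x) * (∫⁻ x, G x) * (∫⁻ x, H x)) ^ (2 / 3 : ℝ) := by
  induction N with
  | zero =>
    intro F G H hF hG hH
    have e : ∀ u : (Fin 0 → ℝ) → ℝ≥0∞, ∫⁻ x, u x = u default := by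
      intro u
      rw [lintegral_unique, volume_pi, Measure.pi_of_empty]
      simp only [measure_univ, mul_one]
      congr 1
      exact Subsingleton.elim _ _
    simp only [e]
    rw [pow_zero, ENNReal.ofReal_one, one_mul,
      Subsingleton.elim ((default : Fin 0 → ℝ) + default) default]
  | succ N ih =>
    intro F G H hF hG hH
    have mcons := P226.PL.measurable_cons (n := N)
    rw [P226.PL.lintegral_slice hF, P226.PL.lintegral_slice hG, P226.PL.lintegral_slice hH]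
    have mF := P226.PL.measurable_slice hF
    have mG := P226.PL.measurable_slice hG
    have mH := P226.PL.measurable_slice hH
    have h1 := young_one mF mG mH
    have hcons_add : ∀ (s t : ℝ) (x y : Fin N → ℝ),
        (Fin.cons s x : Fin (N + 1) → ℝ) + Fin.cons t y = Fin.cons (s + t) (x + y) := by
      intro s t x y
      ext i
      refine Fin.cases ?_ (fun j => ?_) i <;> simp
    calc ∫⁻ x, ∫⁻ y, (F x * G y * H (x + y)) ^ (2 / 3 : ℝ)
        = ∫⁻ s : ℝ, ∫⁻ x : Fin N → ℝ, ∫⁻ t : ℝ, ∫⁻ y : Fin N → ℝ,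
            (F (Fin.cons s x) * G (Fin.cons t y) * H (Fin.cons (s + t) (x + y))) ^ (2 / 3 : ℝ) := by
          rw [P226.PL.lintegral_slice (Measurable.lintegral_prod_right' (f := fun p : _ × _ =>
            (F p.1 * G p.2 * H (p.1 + p.2)) ^ (2 / 3 : ℝ)) (by fun_prop))]
          refine lintegral_congr fun s => lintegral_congr fun x => ?_
          rw [P226.PL.lintegral_slice (by fun_prop)]
          refine lintegral_congr fun t => lintegral_congr fun y => ?_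
          rw [hcons_add]
      _ = ∫⁻ s : ℝ, ∫⁻ t : ℝ, ∫⁻ x : Fin N → ℝ, ∫⁻ y : Fin N → ℝ,
            (F (Fin.cons s x) * G (Fin.cons t y) * H (Fin.cons (s + t) (x + y))) ^ (2 / 3 : ℝ) := by
          refine lintegral_congr fun s => ?_
          rw [lintegral_lintegral_swap]
          refine Measurable.aemeasurable ?_
          refine Measurable.lintegral_prod_right' (f := fun p : ((Fin N → ℝ) × ℝ) × (Fin N → ℝ) =>
            (F (Fin.cons s p.1.1) * G (Fin.cons p.1.2 p.2) *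
              H (Fin.cons (s + p.1.2) (p.1.1 + p.2))) ^ (2 / 3 : ℝ)) ?_
          have m1 : Measurable (fun p : ((Fin N → ℝ) × ℝ) × (Fin N → ℝ) =>
              F (Fin.cons s p.1.1)) :=
            hF.comp (mcons.comp (measurable_const.prodMk (measurable_fst.comp measurable_fst)))
          have m2 : Measurable (fun p : ((Fin N → ℝ) × ℝ) × (Fin N → ℝ) =>
              G (Fin.cons p.1.2 p.2)) :=
            hG.comp (mcons.comp ((measurable_snd.comp measurable_fst).prodMk measurable_snd))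
          have m3 : Measurable (fun p : ((Fin N → ℝ) × ℝ) × (Fin N → ℝ) =>
              H (Fin.cons (s + p.1.2) (p.1.1 + p.2))) :=
            hH.comp (mcons.comp (((measurable_snd.comp measurable_fst).const_add s).prodMk
              ((measurable_fst.comp measurable_fst).add measurable_snd)))
          exact ((m1.mul m2).mul m3).pow_const _
      _ ≤ ∫⁻ s : ℝ, ∫⁻ t : ℝ, ENNReal.ofReal (rho1 ^ N) *
            ((∫⁻ x : Fin N → ℝ, F (Fin.cons s x)) * (∫⁻ x : Fin N → ℝ, G (Fin.cons t x)) *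
              (∫⁻ x : Fin N → ℝ, H (Fin.cons (s + t) x))) ^ (2 / 3 : ℝ) := by
          refine lintegral_mono fun s => lintegral_mono fun t => ?_
          exact ih (F := fun x => F (Fin.cons s x)) (G := fun x => G (Fin.cons t x))
            (H := fun x => H (Fin.cons (s + t) x))
            (hF.comp (mcons.comp (measurable_const.prodMk measurable_id)))
            (hG.comp (mcons.comp (measurable_const.prodMk measurable_id)))
            (hH.comp (mcons.comp (measurable_const.prodMk measurable_id)))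
      _ = ENNReal.ofReal (rho1 ^ N) * ∫⁻ s : ℝ, ∫⁻ t : ℝ,
            ((∫⁻ x : Fin N → ℝ, F (Fin.cons s x)) * (∫⁻ x : Fin N → ℝ, G (Fin.cons t x)) *
              (∫⁻ x : Fin N → ℝ, H (Fin.cons (s + t) x))) ^ (2 / 3 : ℝ) := by
          rw [← lintegral_const_mul' _ _ ENNReal.ofReal_ne_top]
          refine lintegral_congr fun s => ?_
          rw [lintegral_const_mul' _ _ ENNReal.ofReal_ne_top]
      _ ≤ ENNReal.ofReal (rho1 ^ N) * (ENNReal.ofReal rho1 * _) := by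
          gcongr
      _ = _ := by
          rw [← mul_assoc, ← ENNReal.ofReal_mul (pow_nonneg rho1_pos.le _), pow_succ]

/-- MODULE Young (file Young.lean) -/
theorem young_sets : ∃ ρ : ℝ, 0 < ρ ∧ ρ < 1 ∧ ∀ (N : ℕ) (A B C : Set (Fin N → ℝ)),
    MeasurableSet A → MeasurableSet B → MeasurableSet C →
    volume {q : (Fin N → ℝ) × (Fin N → ℝ) | q.1 ∈ A ∧ q.2 ∈ B ∧ q.1 + q.2 ∈ C}
      ≤ ENNReal.ofReal (ρ ^ N) * (volume A * volume B * volume C) ^ ((2 : ℝ) / 3) := by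
  refine ⟨rho1, rho1_pos, rho1_lt_one, fun N A B C hA hB hC => ?_⟩
  have h := young_dim N (F := A.indicator 1) (G := B.indicator 1) (H := C.indicator 1)
    (measurable_one.indicator hA) (measurable_one.indicator hB) (measurable_one.indicator hC)
  rw [lintegral_indicator_one hA, lintegral_indicator_one hB, lintegral_indicator_one hC] at h
  refine le_trans (le_of_eq ?_) h
  have hm : MeasurableSet {q : (Fin N → ℝ) × (Fin N → ℝ) | q.1 ∈ A ∧ q.2 ∈ B ∧ q.1 + q.2 ∈ C} :=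
    (measurable_fst hA).inter ((measurable_snd hB).inter
      ((measurable_fst.add measurable_snd) hC))
  rw [← lintegral_indicator_one hm, Measure.volume_eq_prod, lintegral_prod _
    (measurable_one.indicator hm).aemeasurable]
  refine lintegral_congr fun x => lintegral_congr fun y => ?_
  by_cases h1 : x ∈ A <;> by_cases h2 : y ∈ B <;> by_cases h3 : x + y ∈ C <;>
    simp [indicator, h1, h2, h3]

end Vale.P230
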