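import Vale.Agent.Lib.P230.LatC
import Vale.Agent.Lib.P230.Young
import Vale.Agent.Lib.P230.StepGood

/-!
# P230, module StepBody: Step A for a convex body.
-/

open MeasureTheory ProbabilityTheory Set
open scoped ENNReal Pointwise

namespace Vale.P230

/-! ## The homothety -/

/-- Shrink `A` around `q`. -/
def shr {N : ℕ} (s : ℝ) (q : Fin N → ℝ) (A : Set (Fin N → ℝ)) : Set (Fin N → ℝ) :=
  AffineMap.homothety q s '' A

theorem shr_subset {N : ℕ} {s : ℝ} {q : Fin N → ℝ} {A : Set (Fin N → ℝ)} (hA : Convex ℝ A)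
    (hq : q ∈ A) (h0 : 0 ≤ s) (h1 : s ≤ 1) : shr s q A ⊆ A := by
  rintro _ ⟨x, hx, rfl⟩
  have := hA hq hx (by linarith : 0 ≤ 1 - s) h0 (by ring)
  convert this using 1
  simp [AffineMap.homothety_apply, smul_sub, sub_smul]
  abel

theorem shr_convex {N : ℕ} {s : ℝ} {q : Fin N → ℝ} {A : Set (Fin N → ℝ)} (hA : Convex ℝ A) :
    Convex ℝ (shr s q A) := hA.affine_image _

theorem shr_compact {N : ℕ} {s : ℝ} {q : Fin N → ℝ} {A : Set (Fin N → ℝ)} (hA : IsCompact A) :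
    IsCompact (shr s q A) := hA.image (AffineMap.homothety_continuous _ _)

theorem shr_volume {N : ℕ} {s : ℝ} {q : Fin N → ℝ} {A : Set (Fin N → ℝ)} (h0 : 0 ≤ s) :
    (volume (shr s q A)).toReal = s ^ N * (volume A).toReal := by
  unfold shr
  rw [Measure.addHaar_image_homothety, ENNReal.toReal_mul, ENNReal.toReal_ofReal (abs_nonneg _)]
  rw [abs_of_nonneg (by positivity)]
  simp

theorem shr_cube {N : ℕ} {s r : ℝ} {q : Fin N → ℝ} {A : Set (Fin N → ℝ)} (h0 : 0 < s)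
    (hq : ∀ u : Fin N → ℝ, (∀ i, 0 ≤ u i ∧ u i ≤ r) → q + u ∈ A) : HasCube (s * r) (shr s q A) := by
  refine ⟨q, fun u hu => ⟨q + s⁻¹ • u, hq _ ?_, ?_⟩⟩
  · intro i
    simp only [Pi.smul_apply, smul_eq_mul]
    refine ⟨mul_nonneg (inv_pos.2 h0).le (hu i).1, ?_⟩
    rw [inv_mul_le_iff₀ h0]
    exact (hu i).2
  · rw [AffineMap.homothety_apply]
    simp [smul_smul, h0.ne', add_comm]

theorem volume_le_pow {N : ℕ} {A : Set (Fin N → ℝ)} {R : ℝ} (hne : A.Nonempty)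
    (hR : ∀ x ∈ A, ∀ x' ∈ A, ∀ i, |x i - x' i| ≤ R) : (volume A).toReal ≤ R ^ N := by
  obtain ⟨a, ha⟩ := hne
  set m : Fin N → ℝ := fun i => sInf ((fun x : Fin N → ℝ => x i) '' A) with hm
  have hbdd : ∀ i, BddBelow ((fun x : Fin N → ℝ => x i) '' A) := by
    intro i
    refine ⟨a i - R, ?_⟩
    rintro _ ⟨x, hx, rfl⟩
    have := abs_le.1 (hR a ha x hx i)
    simp only
    linarith [this.2]
  have hsub : A ⊆ Set.Icc m (fun i => m i + R) := by
    intro x hx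
    constructor
    · intro i
      exact csInf_le (hbdd i) (mem_image_of_mem (fun x : Fin N → ℝ => x i) hx)
    · intro i
      have : x i - R ≤ m i := by
        apply le_csInf ⟨a i, mem_image_of_mem (fun x : Fin N → ℝ => x i) ha⟩
        rintro _ ⟨y, hy, rfl⟩
        have := abs_le.1 (hR x hx y hy i)
        simp only
        linarith [this.2]
      simp only
      linarith
  have h1 := measure_mono (μ := (volume : Measure (Fin N → ℝ))) hsub
  rw [Real.volume_Icc_pi] at h1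
  have h2 : (∏ i : Fin N, ENNReal.ofReal (m i + R - m i)) = ENNReal.ofReal (R ^ N)
      ∧ 0 ≤ R ^ N := by
    rcases Nat.eq_zero_or_pos N with h0 | hNpos
    · subst h0; simp
    · have hR0 : 0 ≤ R := le_trans (abs_nonneg _) (hR a ha a ha ⟨0, hNpos⟩)
      refine ⟨?_, by positivity⟩
      simp [ENNReal.ofReal_pow hR0]
  rw [h2.1] at h1
  exact ENNReal.toReal_le_of_le_ofReal h2.2 h1

theorem uncCount_mono {α : Type*} {N d p : ℕ} [Fact p.Prime] (v : α → Fin N → ZMod p)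
    {S S' : Set α} (h : S ⊆ S') : uncCount d v S' ≤ uncCount d v S := by
  unfold uncCount
  apply Set.ncard_le_ncard
  · intro q hq z hz
    exact hq z (h hz)
  · exact Set.toFinite _

theorem one_add_pow_le_exp (x : ℝ) (N : ℕ) (h : 0 ≤ 1 + x) : (1 + x) ^ N ≤ Real.exp (N * x) := by
  rw [Real.exp_nat_mul]
  exact pow_le_pow_left₀ h (by linarith [Real.add_one_le_exp x]) N

theorem exp_quarter : Real.exp (1 / 4) ≤ 4 / 3 := by
  refine le_trans (Real.exp_bound' (by norm_num) (by norm_num) (n := 4) (by norm_num)) ?_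
  simp only [Finset.sum_range_succ, Finset.sum_range_zero, Nat.factorial]
  norm_num

theorem good_body {ρ : ℝ} (hρ0 : 0 < ρ) (hρ : ∀ (N : ℕ) (A B C : Set (Fin N → ℝ)),
      MeasurableSet A → MeasurableSet B → MeasurableSet C →
      volume {q : (Fin N → ℝ) × (Fin N → ℝ) | q.1 ∈ A ∧ q.2 ∈ B ∧ q.1 + q.2 ∈ C}
        ≤ ENNReal.ofReal (ρ ^ N) * (volume A * volume B * volume C) ^ ((2 : ℝ) / 3))
    {N p : ℕ} (hN : 2 ≤ N) {A : Set (Fin N → ℝ)} (hA : Convex ℝ A) (hc : IsCompact A)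
    {r R : ℝ} (hr : (N : ℝ) ^ 5 ≤ r) (hq : HasCube r A) (hV : 0 < (volume A).toReal)
    (hR : ∀ x ∈ A, ∀ x' ∈ A, ∀ i, |x i - x' i| ≤ R) (hp : 16 * R ^ 2 < p) :
    GoodSet N (zpts_finite hc).toFinset p (N ^ 4) ρ ∧
      (1 - 1 / (N : ℝ) ^ 4) * (volume A).toReal ≤ ((zpts_finite hc).toFinset.card : ℝ) ∧
      ((zpts_finite hc).toFinset.card : ℝ) ≤ 2 * (volume A).toReal := by
  classical
  set V : ℝ := (volume A).toReal with hVdef
  set S : Finset (Fin N → ℤ) := (zpts_finite hc).toFinset with hS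
  have hmemS : ∀ z, z ∈ S ↔ z ∈ zpts A := fun z => by rw [hS]; exact Set.Finite.mem_toFinset _
  have hcardS : (S.card : ℝ) = (zpts A).ncard := by
    rw [hS, Set.ncard_eq_toFinset_card _ (zpts_finite hc)]
  have hN2 : (2 : ℝ) ≤ N := by exact_mod_cast hN
  have hN4 : (16 : ℝ) ≤ (N : ℝ) ^ 4 := by
    calc (16 : ℝ) = 2 ^ 4 := by norm_num
      _ ≤ (N : ℝ) ^ 4 := by gcongr
  have hN4pos : (0 : ℝ) < (N : ℝ) ^ 4 := by positivity
  have hN5 : (N : ℝ) ^ 5 = N * (N : ℝ) ^ 4 := by ring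
  have hr1 : 1 ≤ r := by nlinarith
  have hrpos : 0 < r := by linarith
  have hNr : (N : ℝ) / r ≤ 1 / (N : ℝ) ^ 4 := by
    rw [div_le_div_iff₀ hrpos hN4pos]; nlinarith
  have hinv : 1 / (N : ℝ) ^ 4 ≤ 1 / 16 := one_div_le_one_div_of_le (by norm_num) hN4
  -- lower bound
  have hlow : (1 - 1 / (N : ℝ) ^ 4) * V ≤ (S.card : ℝ) := by
    have h1 := card_zpts_lower hA hc hr1 hq
    rw [← hcardS] at h1
    refine le_trans ?_ h1
    apply mul_le_mul_of_nonneg_right _ hV.le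
    have h2 := one_add_mul_le_pow (a := -(1 / r)) (by
      have : 1 / r ≤ 1 := by rw [div_le_one hrpos]; exact hr1
      linarith) N
    have h3 : (N : ℝ) * (1 / r) = N / r := by ring
    have h4 : (1 : ℝ) + -(1 / r) = 1 - 1 / r := by ring
    rw [h4] at h2
    nlinarith
  have hhalf : V / 2 ≤ (S.card : ℝ) := by
    refine le_trans ?_ hlow
    nlinarith
  have hexp1 : Real.exp 1 ≤ 4 := by
    have := Real.exp_one_lt_d9; linarith
  have hexpq := exp_quarter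
  have hup : (S.card : ℝ) ≤ 2 * V := by
    have h1 := card_zpts_class hA hc hr1 hq 1 le_rfl 1 one_pos (by norm_num) 0
    have h2 : {z ∈ zpts A | ∀ i, z i ≡ (0 : Fin N → ℤ) i [ZMOD ((1 : ℕ) : ℤ)]} = zpts A := by
      ext z
      simp only [Set.mem_ofPred_eq, and_iff_left_iff_imp]
      intro _ i
      simp [Int.modEq_one]
    rw [h2, ← hcardS, one_pow, mul_one] at h1
    refine h1.trans ?_
    apply mul_le_mul_of_nonneg_right _ hV.le
    refine (one_add_pow_le_exp _ N (by positivity)).trans ?_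
    have h3 : (N : ℝ) * (1 / r) ≤ 1 / 4 := by
      have : (N : ℝ) * (1 / r) = N / r := by ring
      rw [this]; linarith
    have := Real.exp_le_exp.2 h3
    linarith
  refine ⟨⟨?_, ?_, ?_, ?_⟩, hlow, hup⟩
  · rw [← Finset.card_pos]
    have : (0 : ℝ) < (S.card : ℝ) := lt_of_lt_of_le (by positivity) hhalf
    exact_mod_cast this
  · intro z hz z' hz' i
    have h1 := hR _ ((hmemS z).1 hz) _ ((hmemS z').1 hz') i
    have h2 : (16 * ((z i - z' i : ℤ) : ℝ) ^ 2) ≤ 16 * R ^ 2 := by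
      push_cast
      have := sq_le_sq' (by linarith [(abs_le.1 h1).1]) (abs_le.1 h1).2
      linarith
    have h3 : (16 * ((z i - z' i : ℤ) : ℝ) ^ 2) < p := lt_of_le_of_lt h2 hp
    exact_mod_cast h3
  · intro t ht b
    set τ : ℕ := min t (N ^ 4) with hτ
    have hτ1 : 1 ≤ τ := by
      rw [hτ]; apply le_min (by omega)
      exact Nat.one_le_pow _ _ (by omega)
    have hτ0 : (0 : ℝ) < (τ : ℝ) := by exact_mod_cast hτ1
    have hτt : (τ : ℝ) ≤ (t : ℝ) := by exact_mod_cast min_le_left _ _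
    have hτN : (τ : ℝ) ≤ (N : ℝ) ^ 4 := by exact_mod_cast min_le_right _ _
    have h1 := card_zpts_class hA hc hr1 hq t (by omega) (τ : ℝ) hτ0 hτt b
    have h2 : ((S.filter (fun z => ∀ i, z i ≡ b i [ZMOD t])).card : ℝ) =
        (({z ∈ zpts A | ∀ i, z i ≡ b i [ZMOD t]}).ncard : ℝ) := by
      congr 1
      rw [← Set.ncard_coe_finset]
      congr 1
      ext z
      simp [hmemS]
    rw [h2]
    refine h1.trans ?_
    have h3 : (1 + (τ : ℝ) / r) ^ N ≤ 4 := by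
      refine (one_add_pow_le_exp _ N (by positivity)).trans ?_
      refine le_trans (Real.exp_le_exp.2 ?_) hexp1
      rw [← mul_div_assoc, div_le_one hrpos]
      nlinarith
    nlinarith
  · intro w
    have h1 := card_pairs hρ0 hρ hA hc hr1 hq w
    have h2 : (((S ×ˢ S).filter (fun q => q.1 + q.2 + w ∈ S)).card : ℝ) =
        (({q : (Fin N → ℤ) × (Fin N → ℤ) |
          q.1 ∈ zpts A ∧ q.2 ∈ zpts A ∧ q.1 + q.2 + w ∈ zpts A}).ncard : ℝ) := by
      congr 1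
      rw [← Set.ncard_coe_finset]
      congr 1
      ext z
      simp [hmemS, and_assoc]
    rw [h2]
    refine h1.trans ?_
    have h3 : (1 + 2 / r) ^ (2 * N) ≤ 2 := by
      refine (one_add_pow_le_exp _ (2 * N) (by positivity)).trans ?_
      have h4 : ((2 * N : ℕ) : ℝ) * (2 / r) ≤ 1 / 4 := by
        have : ((2 * N : ℕ) : ℝ) * (2 / r) = 4 * (N / r) := by push_cast; ring
        rw [this]; linarith
      have := Real.exp_le_exp.2 h4
      linarith
    have h5 : 0 < ρ ^ N := pow_pos hρ0 N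
    have h6 : V ^ 2 ≤ 4 * (S.card : ℝ) ^ 2 := by nlinarith
    calc ρ ^ N * (1 + 2 / r) ^ (2 * N) * V ^ 2 ≤ ρ ^ N * 2 * (4 * (S.card : ℝ) ^ 2) := by
          gcongr
      _ = 8 * ρ ^ N * (S.card : ℝ) ^ 2 := by ring

/-- MODULE StepBody (file StepBody.lean): Step A for a convex body. -/
theorem step_body : ∃ c₁ : ℝ, 0 < c₁ ∧ ∃ N₀ : ℕ, ∀ (d N p : ℕ) [Fact p.Prime],
    N = 4 * d → N₀ ≤ N → N ^ 40 ≤ p → p ≤ 2 * N ^ 40 →
    ∀ (A : Set (Fin N → ℝ)) (V r R : ℝ), Convex ℝ A → IsCompact A → HasCube r A →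
      (∀ x ∈ A, ∀ x' ∈ A, ∀ i, |x i - x' i| ≤ R) → 0 < R → (N : ℝ) ^ 8 ≤ r → 16 * R ^ 2 < p →
      (R / (N : ℝ) ^ 3) ^ N ≤ V → V ≤ (volume A).toReal → V ≤ c₁ * N * (p : ℝ) ^ d →
      (uncCount d (red p) (zpts A) : ℝ) / (p : ℝ) ^ (d * (N + 1))
        ≤ 4 * Real.exp (-(V / (p : ℝ) ^ d)) := by
  obtain ⟨ρ, hρ0, hρ1, hρ⟩ := young_sets
  obtain ⟨c, hc0, N₁, hgood⟩ := stepA_good hρ0 hρ1
  refine ⟨c / 2, by positivity, max N₁ (max 2 ⌈2 * c⌉₊), ?_⟩
  intro d N p _ hNd hN₀ hp1 hp2 A V r R hA hcA hcube hdiam hR hr hpR hVlow hVA hVup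
  have hN1 : N₁ ≤ N := le_trans (le_max_left _ _) hN₀
  have hN2 : 2 ≤ N := le_trans (le_trans (le_max_left _ _) (le_max_right _ _)) hN₀
  have hN3 : 2 * c ≤ N := by
    have : ⌈2 * c⌉₊ ≤ N := le_trans (le_trans (le_max_right _ _) (le_max_right _ _)) hN₀
    exact (Nat.le_ceil _).trans (by exact_mod_cast this)
  have hNr2 : (2 : ℝ) ≤ N := by exact_mod_cast hN2
  have hNpos : 0 < N := by omega
  have hNne : N ≠ 0 := by omega
  have hNrpos : (0 : ℝ) < N := by linarith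
  have hpp : (0 : ℝ) < (p : ℝ) := by exact_mod_cast (Fact.out : p.Prime).pos
  have hpd : (0 : ℝ) < (p : ℝ) ^ d := by positivity
  have hVpos : 0 < V := lt_of_lt_of_le (by positivity) hVlow
  set W : ℝ := (volume A).toReal with hW
  have hWpos : 0 < W := lt_of_lt_of_le hVpos hVA
  obtain ⟨q, hq⟩ := hcube
  have hrpos : 0 < r := lt_of_lt_of_le (by positivity) hr
  have hqA : q ∈ A := by
    have := hq 0 (fun i => ⟨le_rfl, hrpos.le⟩)
    simpa using this
  have hWR : W ≤ R ^ N := volume_le_pow ⟨q, hqA⟩ hdiam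
  -- the ratio
  set s : ℝ := (V / W) ^ ((N : ℝ)⁻¹) with hs
  have hs0 : 0 < s := Real.rpow_pos_of_pos (by positivity) _
  have hsN : s ^ N = V / W := by
    rw [hs]; exact Real.rpow_inv_natCast_pow (by positivity) hNne
  have hs1 : s ≤ 1 := by
    have : s ^ N ≤ 1 := by rw [hsN, div_le_one hWpos]; exact hVA
    by_contra h
    push Not at h
    have := one_lt_pow₀ h hNne
    linarith
  have hs3 : 1 / (N : ℝ) ^ 3 ≤ s := by
    have h1 : (1 / (N : ℝ) ^ 3) ^ N ≤ s ^ N := by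
      rw [hsN, le_div_iff₀ hWpos]
      calc (1 / (N : ℝ) ^ 3) ^ N * W ≤ (1 / (N : ℝ) ^ 3) ^ N * R ^ N := by gcongr
        _ = (R / (N : ℝ) ^ 3) ^ N := by rw [← mul_pow]; congr 1; ring
        _ ≤ V := hVlow
    exact le_of_pow_le_pow_left₀ hNne hs0.le h1
  have hr5 : (N : ℝ) ^ 5 ≤ s * r := by
    calc (N : ℝ) ^ 5 = 1 / (N : ℝ) ^ 3 * (N : ℝ) ^ 8 := by field_simp
      _ ≤ s * r := by gcongr
  -- the shrunk body
  set B : Set (Fin N → ℝ) := shr s q A with hB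
  have hBA : B ⊆ A := shr_subset hA hqA hs0.le hs1
  have hBc : IsCompact B := shr_compact hcA
  have hBconv : Convex ℝ B := shr_convex hA
  have hBV : (volume B).toReal = V := by
    rw [hB, shr_volume hs0.le, hsN, div_mul_cancel₀ _ hWpos.ne']
  have hBcube : HasCube (s * r) B := shr_cube hs0 hq
  have hBdiam : ∀ x ∈ B, ∀ x' ∈ B, ∀ i, |x i - x' i| ≤ R :=
    fun x hx x' hx' i => hdiam x (hBA hx) x' (hBA hx') i
  obtain ⟨hG, hGl, hGu⟩ := good_body hρ0 hρ hN2 hBconv hBc hr5 hBcube (by rw [hBV]; exact hVpos)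
    hBdiam hpR
  rw [hBV] at hGl hGu
  set S := (zpts_finite hBc).toFinset with hS
  have hN4 : (16 : ℝ) ≤ (N : ℝ) ^ 4 := by
    calc (16 : ℝ) = 2 ^ 4 := by norm_num
      _ ≤ (N : ℝ) ^ 4 := by gcongr
  have hinv : 1 / (N : ℝ) ^ 4 ≤ 1 / 16 := one_div_le_one_div_of_le (by norm_num) hN4
  have hcardup : (S.card : ℝ) ≤ c * N * (p : ℝ) ^ d := by
    refine hGu.trans ?_
    calc 2 * V ≤ 2 * (c / 2 * N * (p : ℝ) ^ d) := by gcongr
      _ = c * N * (p : ℝ) ^ d := by ring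
  have hRN : (N : ℝ) ^ 8 ≤ R := by
    refine hr.trans ?_
    have h0 : q + 0 ∈ A := hq 0 (fun i => ⟨le_rfl, hrpos.le⟩)
    have h1 : q + (fun _ => r) ∈ A := hq _ (fun i => ⟨hrpos.le, le_rfl⟩)
    have h2 := hdiam _ h1 _ h0 ⟨0, hNpos⟩
    simp only [Pi.add_apply, Pi.zero_apply, add_zero, add_sub_cancel_left] at h2
    exact (le_abs_self r).trans h2
  have hcardlow : (N : ℝ) ^ N ≤ (S.card : ℝ) := by
    have h1 : (N : ℝ) ^ 2 ≤ R / (N : ℝ) ^ 3 := by
      rw [le_div_iff₀ (by positivity)]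
      refine le_trans ?_ hRN
      calc (N : ℝ) ^ 2 * (N : ℝ) ^ 3 = (N : ℝ) ^ 5 := by ring
        _ ≤ (N : ℝ) ^ 8 := pow_le_pow_right₀ (by linarith) (by norm_num)
    have h2 : ((N : ℝ) ^ 2) ^ N ≤ V := (pow_le_pow_left₀ (by positivity) h1 N).trans hVlow
    have h3 : ((N : ℝ) ^ 2) ^ N = (N : ℝ) ^ N * (N : ℝ) ^ N := by rw [← pow_mul, ← pow_add]; ring_nf
    have h4 : (2 : ℝ) ≤ (N : ℝ) ^ N := by
      calc (2 : ℝ) ≤ N := hNr2
        _ = (N : ℝ) ^ 1 := (pow_one _).symm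
        _ ≤ (N : ℝ) ^ N := pow_le_pow_right₀ (by linarith) (by omega)
    nlinarith
  have hmain := hgood d N p (N ^ 4) S hNd hN1 hp1 hp2 (Nat.le_self_pow (by norm_num) N) hG hcardup
    hcardlow
  have hcoe : (S : Set (Fin N → ℤ)) = zpts B := by rw [hS]; exact Set.Finite.coe_toFinset _
  rw [hcoe] at hmain
  have hmono : (uncCount d (red p) (zpts A) : ℝ) ≤ (uncCount d (red p) (zpts B) : ℝ) := by
    exact_mod_cast uncCount_mono (red p) (fun z hz => hBA hz)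
  calc (uncCount d (red p) (zpts A) : ℝ) / (p : ℝ) ^ (d * (N + 1))
      ≤ (uncCount d (red p) (zpts B) : ℝ) / (p : ℝ) ^ (d * (N + 1)) := by gcongr
    _ ≤ 3 * Real.exp (-((S.card : ℝ) / (p : ℝ) ^ d)) := hmain
    _ ≤ 3 * (4 / 3 * Real.exp (-(V / (p : ℝ) ^ d))) := by
        apply mul_le_mul_of_nonneg_left _ (by norm_num)
        have h1 : V / (p : ℝ) ^ d - 1 / 4 ≤ (S.card : ℝ) / (p : ℝ) ^ d := by
          have h2 : V / (p : ℝ) ^ d ≤ c / 2 * N := by
            rw [div_le_iff₀ hpd]; exact hVup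
          have h3 : 1 / (N : ℝ) ^ 4 * (V / (p : ℝ) ^ d) ≤ 1 / 4 := by
            calc 1 / (N : ℝ) ^ 4 * (V / (p : ℝ) ^ d) ≤ 1 / (N : ℝ) ^ 4 * (c / 2 * N) := by gcongr
              _ = (2 * c) * N / (4 * (N : ℝ) ^ 4) := by ring
              _ ≤ N * N / (4 * (N : ℝ) ^ 4) := by gcongr
              _ ≤ 1 / 4 := by
                rw [div_le_div_iff₀ (by positivity) (by norm_num)]
                have : (N : ℝ) ^ 4 = (N * N) * (N * N) := by ring
                rw [this]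
                have h5 : (1 : ℝ) ≤ N * N := by nlinarith
                nlinarith
          have h4 : (1 - 1 / (N : ℝ) ^ 4) * (V / (p : ℝ) ^ d) ≤ (S.card : ℝ) / (p : ℝ) ^ d := by
            rw [← mul_div_assoc]; gcongr
          linarith
        calc Real.exp (-((S.card : ℝ) / (p : ℝ) ^ d)) ≤ Real.exp (1 / 4 + -(V / (p : ℝ) ^ d)) := by
              apply Real.exp_le_exp.2; linarith
          _ = Real.exp (1 / 4) * Real.exp (-(V / (p : ℝ) ^ d)) := Real.exp_add _ _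
          _ ≤ 4 / 3 * Real.exp (-(V / (p : ℝ) ^ d)) := by
              apply mul_le_mul_of_nonneg_right exp_quarter (Real.exp_pos _).le
    _ = 4 * Real.exp (-(V / (p : ℝ) ^ d)) := by ring

end Vale.P230
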