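import Vale.Agent.Lib.P230.MarginalOf
import Vale.Agent.Lib.P230.ExistsG

/-!
# P230, module Marginal
-/

open MeasureTheory ProbabilityTheory Set
open scoped ENNReal Pointwise

namespace Vale.P230

/-- MODULE Marginal (file Marginal.lean) -/
theorem marginal (η : ℝ) (hη : 0 < η) (hη1 : η ≤ 1) : ∃ c : ℝ, 0 < c ∧ ∃ n₀ : ℕ, ∀ (n N T : ℕ),
    n = N + T → n₀ ≤ n → 0 < T → (T : ℝ) ^ 2 ≤ Real.log n → ∀ (K : Set (Fin n → ℝ)),
    Convex ℝ K → IsCompact K → (interior K).Nonempty →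
    ∃ L : (Fin n → ℝ) ≃ₗ[ℝ] ((Fin N → ℝ) × (Fin T → ℝ)), ∀ y : Fin T → ℝ, (∀ i, |y i| ≤ 3) →
      c * (((1 + η) * √(2 * Real.pi))⁻¹) ^ T * Real.exp (-(∑ i, y i ^ 2) / 2)
        * (volume (L '' K)).toReal ≤ (volume (sec (L '' K) y)).toReal :=
  marginal_of η hη (exists_G η hη hη1)

end Vale.P230
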