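import Vale.Agent.Lib.P230.PositionOf
import Vale.Agent.Lib.P230.Marginal
import Vale.Agent.Lib.P230.Simplex

/-!
# P230, module Position
-/

open MeasureTheory ProbabilityTheory Set
open scoped ENNReal Pointwise

namespace Vale.P230

/-- MODULE Position (file Position.lean) -/
theorem good_position (η : ℝ) (hη : 0 < η) (hη1 : η ≤ 1) : ∃ c : ℝ, 0 < c ∧ ∃ n₀ : ℕ,
    ∀ (n N T : ℕ), n = N + T → n₀ ≤ n → 0 < N → 0 < T → (T : ℝ) ^ 2 ≤ Real.log n →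
    ∀ (K : Set (Fin n → ℝ)), Convex ℝ K → IsCompact K → (interior K).Nonempty →
    ∃ (L : (Fin n → ℝ) ≃ₗ[ℝ] ((Fin N → ℝ) × (Fin T → ℝ))) (x₀ : (Fin N → ℝ) × (Fin T → ℝ))
      (Q : Set ((Fin N → ℝ) × (Fin T → ℝ))), Q = (fun x => L x + x₀) '' K ∧
      ((0, 0) ∈ Q ∧ (∀ i, ((Pi.single i 1 : Fin N → ℝ), (0 : Fin T → ℝ)) ∈ Q) ∧
        (∀ j, ((0 : Fin N → ℝ), (Pi.single j 1 : Fin T → ℝ)) ∈ Q)) ∧
      (∀ y : Fin T → ℝ, (∀ i, |y i| ≤ 11 / 5) → HasCube (1 / (4 * N)) (sec Q y) ∧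
        (∀ x ∈ sec Q y, ∀ x' ∈ sec Q y, ∀ i, |x i - x' i| ≤ 4)) ∧
      (∀ y : Fin T → ℝ, (∀ i, |y i| ≤ 3) →
        c * (((1 + η) * √(2 * Real.pi))⁻¹) ^ T * Real.exp (-(∑ i, y i ^ 2) / 2)
          * (volume Q).toReal ≤ (volume (sec Q y)).toReal) :=
  good_position_of η hη (marginal η hη hη1) (fun A hA hc hv => simplex_position A hA hc hv)

end Vale.P230
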