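import Vale.Agent.Lib.P230.Defs
import Vale.Agent.Lib.P226.PL

/-!
# P230, module SecQC: quasi-concavity of section volumes
-/

open MeasureTheory ProbabilityTheory Set
open scoped ENNReal Pointwise

namespace Vale.P230

lemma isCompact_sec {N T : ℕ} {Q : Set ((Fin N → ℝ) × (Fin T → ℝ))} (hQ : IsCompact Q)
    (y : Fin T → ℝ) : IsCompact (sec Q y) := by
  have h2 : sec Q y ⊆ Prod.fst '' Q := fun x hx => ⟨(x, y), hx, rfl⟩
  have h3 : IsClosed (sec Q y) := by
    have : sec Q y = (fun x : Fin N → ℝ => (x, y)) ⁻¹' Q := rfl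
    rw [this]
    exact hQ.isClosed.preimage (by fun_prop)
  exact (hQ.image continuous_fst).of_isClosed_subset h3 h2

/-- Brunn–Minkowski for sections, in the multiplicative form. -/
lemma sec_midpoint {N T : ℕ} (Q : Set ((Fin N → ℝ) × (Fin T → ℝ))) (hQ : Convex ℝ Q)
    (hc : IsCompact Q) (y₁ y₂ : Fin T → ℝ) :
    volume (sec Q y₁) * volume (sec Q y₂) ≤ (volume (sec Q ((1 / 2 : ℝ) • (y₁ + y₂)))) ^ 2 := by
  have h1 := (isCompact_sec hc y₁).measurableSet
  have h2 := (isCompact_sec hc y₂).measurableSet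
  have h3 := (isCompact_sec hc ((1 / 2 : ℝ) • (y₁ + y₂))).measurableSet
  have key := Vale.P226.PL.prekopa_leindler N
    (f := (sec Q y₁).indicator (fun _ => (1 : ℝ≥0∞)))
    (g := (sec Q y₂).indicator (fun _ => (1 : ℝ≥0∞)))
    (h := (sec Q ((1 / 2 : ℝ) • (y₁ + y₂))).indicator (fun _ => (1 : ℝ≥0∞)))
    (measurable_const.indicator h1) (measurable_const.indicator h2)
    (measurable_const.indicator h3) (by
      intro x y
      by_cases hx : x ∈ sec Q y₁
      · by_cases hy : y ∈ sec Q y₂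
        · have hxy : (1 / 2 : ℝ) • (x + y) ∈ sec Q ((1 / 2 : ℝ) • (y₁ + y₂)) := by
            have := hQ hx hy (by norm_num : (0 : ℝ) ≤ 1 / 2) (by norm_num : (0 : ℝ) ≤ 1 / 2)
              (by norm_num)
            simpa [sec, smul_add] using this
          rw [Set.indicator_of_mem hx, Set.indicator_of_mem hy, Set.indicator_of_mem hxy]
          simp
        · rw [Set.indicator_of_notMem hy]; simp
      · rw [Set.indicator_of_notMem hx]; simp)
  rw [lintegral_indicator_const h1, lintegral_indicator_const h2,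
    lintegral_indicator_const h3] at key
  simpa using key

lemma sec_closed {N T : ℕ} (Q : Set ((Fin N → ℝ) × (Fin T → ℝ)))
    (hc : IsCompact Q) (c : ℝ≥0∞) : IsClosed {y : Fin T → ℝ | c ≤ volume (sec Q y)} := by
  apply IsSeqClosed.isClosed
  intro u y hu huy
  have hP : IsCompact (Prod.fst '' Q) := hc.image continuous_fst
  have h1 : Filter.limsup (fun n => ∫⁻ x, (sec Q (u n)).indicator (fun _ => (1 : ℝ≥0∞)) x)
      Filter.atTop ≤ ∫⁻ x, Filter.limsup
        (fun n => (sec Q (u n)).indicator (fun _ => (1 : ℝ≥0∞)) x) Filter.atTop := by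
    apply limsup_lintegral_le ((Prod.fst '' Q).indicator (fun _ => (1 : ℝ≥0∞)))
    · intro n
      exact measurable_const.indicator (isCompact_sec hc (u n)).measurableSet
    · intro n
      apply Filter.Eventually.of_forall
      intro x
      apply Set.indicator_le_indicator_of_subset _ (fun _ => bot_le)
      intro x hx
      exact ⟨(x, u n), hx, rfl⟩
    · rw [lintegral_indicator_const hP.measurableSet, one_mul]
      exact hP.measure_lt_top.ne
  have h2 : ∫⁻ x, Filter.limsup
        (fun n => (sec Q (u n)).indicator (fun _ => (1 : ℝ≥0∞)) x) Filter.atTop ≤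
        ∫⁻ x, (sec Q y).indicator (fun _ => (1 : ℝ≥0∞)) x := by
    apply lintegral_mono
    intro x
    by_cases hx : x ∈ sec Q y
    · rw [Set.indicator_of_mem hx]
      apply Filter.limsup_le_of_le
      · isBoundedDefault
      · apply Filter.Eventually.of_forall
        intro n
        exact Set.indicator_le_self' (fun _ _ => bot_le) x
    · -- eventually not in the section
      have hopen : IsOpen {z : Fin T → ℝ | (x, z) ∉ Q} := by
        have : {z : Fin T → ℝ | (x, z) ∉ Q} = (fun z : Fin T → ℝ => (x, z)) ⁻¹' Qᶜ := rfl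
        rw [this]
        exact hc.isClosed.isOpen_compl.preimage (by fun_prop)
      have hev : ∀ᶠ n in Filter.atTop, u n ∈ {z : Fin T → ℝ | (x, z) ∉ Q} :=
        huy.eventually (hopen.mem_nhds hx)
      apply Filter.limsup_le_of_le
      · isBoundedDefault
      · filter_upwards [hev] with n hn
        have : x ∉ sec Q (u n) := hn
        rw [Set.indicator_of_notMem this]
        exact bot_le
  have h3 : ∀ n, ∫⁻ x, (sec Q (u n)).indicator (fun _ => (1 : ℝ≥0∞)) x = volume (sec Q (u n)) := by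
    intro n
    rw [lintegral_indicator_const (isCompact_sec hc (u n)).measurableSet, one_mul]
  have h4 : ∫⁻ x, (sec Q y).indicator (fun _ => (1 : ℝ≥0∞)) x = volume (sec Q y) := by
    rw [lintegral_indicator_const (isCompact_sec hc y).measurableSet, one_mul]
  simp only [h3] at h1
  rw [h4] at h2
  refine le_trans ?_ (h1.trans h2)
  apply Filter.le_limsup_of_frequently_le
  · exact Filter.Frequently.of_forall hu
  · isBoundedDefault

lemma convex_of_midpoint {E : Type*} [AddCommGroup E] [Module ℝ E] [TopologicalSpace E]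
    [IsTopologicalAddGroup E] [ContinuousSMul ℝ E] {S : Set E} (hS : IsClosed S)
    (hm : ∀ x ∈ S, ∀ y ∈ S, (1 / 2 : ℝ) • (x + y) ∈ S) : Convex ℝ S := by
  rw [convex_iff_segment_subset]
  intro a ha b hb
  rw [segment_eq_image]
  rintro _ ⟨t, ht, rfl⟩
  by_contra hcon
  set φ : ℝ → E := fun t => (1 - t) • a + t • b with hφ
  have hφc : Continuous φ := by fun_prop
  set D : Set ℝ := φ ⁻¹' S with hD
  have hDc : IsClosed D := hS.preimage hφc
  have h0 : (0 : ℝ) ∈ D := by simp [hD, hφ, ha]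
  have h1 : (1 : ℝ) ∈ D := by simp [hD, hφ, hb]
  have ht' : t ∉ D := hcon
  -- left and right neighbours
  have hL : (D ∩ Set.Icc 0 t).Nonempty := ⟨0, h0, ⟨le_rfl, ht.1⟩⟩
  have hR : (D ∩ Set.Icc t 1).Nonempty := ⟨1, h1, ⟨ht.2, le_rfl⟩⟩
  have hLc : IsCompact (D ∩ Set.Icc 0 t) := isCompact_Icc.inter_left hDc
  have hRc : IsCompact (D ∩ Set.Icc t 1) := isCompact_Icc.inter_left hDc
  obtain ⟨s1, hs1, hs1max⟩ := hLc.exists_isGreatest hL
  obtain ⟨s2, hs2, hs2min⟩ := hRc.exists_isLeast hR
  have h3 : s1 < t := lt_of_le_of_ne hs1.2.2 (fun h => ht' (h ▸ hs1.1))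
  have h4 : t < s2 := lt_of_le_of_ne hs2.2.1 (fun h => ht' (h ▸ hs2.1))
  have h5 : (1 / 2 : ℝ) * (s1 + s2) ∈ D := by
    have := hm _ hs1.1 _ hs2.1
    have h6 : (1 / 2 : ℝ) • (φ s1 + φ s2) = φ ((1 / 2 : ℝ) * (s1 + s2)) := by
      simp only [hφ]
      module
    rw [h6] at this
    exact this
  rcases le_total ((1 / 2 : ℝ) * (s1 + s2)) t with h | h
  · have := hs1max ⟨h5, ⟨by linarith [hs1.2.1], h⟩⟩
    linarith
  · have := hs2min ⟨h5, ⟨h, by linarith [hs2.2.2]⟩⟩
    linarith

/-- MODULE SecQC (file SecQC.lean): quasi-concavity of section volumes (from Prekopa-Leindler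
`Vale.P226.PL.prekopa_leindler` and compactness). -/
theorem section_quasiconcave {N T : ℕ} (Q : Set ((Fin N → ℝ) × (Fin T → ℝ))) (hQ : Convex ℝ Q)
    (hc : IsCompact Q) (c : ℝ≥0∞) : Convex ℝ {y : Fin T → ℝ | c ≤ volume (sec Q y)} := by
  apply convex_of_midpoint (sec_closed Q hc c)
  intro y₁ h₁ y₂ h₂
  have h := sec_midpoint Q hQ hc y₁ y₂
  have h3 : c ^ 2 ≤ (volume (sec Q ((1 / 2 : ℝ) • (y₁ + y₂)))) ^ 2 := by
    refine le_trans ?_ h
    rw [sq]
    exact mul_le_mul' h₁ h₂
  exact (ENNReal.pow_right_strictMono (by norm_num : (2 : ℕ) ≠ 0)).le_iff_le.mp h3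

end Vale.P230
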