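import Vale.Agent.Lib.P230.Defs

/-!
# P230 skeleton: the statement of every module (NOT to be imported; each module goes in its own file
`Vale/Agent/Lib/P230/<Module>.lean`, same namespace `Vale.P230`, same theorem name and statement).
-/

open MeasureTheory ProbabilityTheory Set
open scoped ENNReal Pointwise

namespace Vale.P230

/-! ## YOUNG -/

/-- MODULE Young (file Young.lean) -/
theorem young_sets : ∃ ρ : ℝ, 0 < ρ ∧ ρ < 1 ∧ ∀ (N : ℕ) (A B C : Set (Fin N → ℝ)),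
    MeasurableSet A → MeasurableSet B → MeasurableSet C →
    volume {q : (Fin N → ℝ) × (Fin N → ℝ) | q.1 ∈ A ∧ q.2 ∈ B ∧ q.1 + q.2 ∈ C}
      ≤ ENNReal.ofReal (ρ ^ N) * (volume A * volume B * volume C) ^ ((2 : ℝ) / 3) := by
  sorry

/-! ## LATC: lattice point counts in convex bodies -/

/-- MODULE LatC (file LatC.lean) -/
theorem zpts_finite {N : ℕ} {A : Set (Fin N → ℝ)} (hc : IsCompact A) : (zpts A).Finite := by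
  sorry

theorem card_zpts_lower {N : ℕ} {A : Set (Fin N → ℝ)} (hA : Convex ℝ A) (hc : IsCompact A)
    {r : ℝ} (hr : 1 ≤ r) (hq : HasCube r A) :
    (1 - 1 / r) ^ N * (volume A).toReal ≤ (zpts A).ncard := by
  sorry

theorem card_zpts_class {N : ℕ} {A : Set (Fin N → ℝ)} (hA : Convex ℝ A) (hc : IsCompact A)
    {r : ℝ} (hr : 1 ≤ r) (hq : HasCube r A) (t : ℕ) (ht : 1 ≤ t) (τ : ℝ) (hτ0 : 0 < τ)
    (hτ : τ ≤ t) (b : Fin N → ℤ) :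
    (({z ∈ zpts A | ∀ i, z i ≡ b i [ZMOD t]}).ncard : ℝ) * τ ^ N
      ≤ (1 + τ / r) ^ N * (volume A).toReal := by
  sorry

theorem card_pairs {ρ : ℝ} (hρ0 : 0 < ρ) (hρ : ∀ (N : ℕ) (A B C : Set (Fin N → ℝ)),
      MeasurableSet A → MeasurableSet B → MeasurableSet C →
      volume {q : (Fin N → ℝ) × (Fin N → ℝ) | q.1 ∈ A ∧ q.2 ∈ B ∧ q.1 + q.2 ∈ C}
        ≤ ENNReal.ofReal (ρ ^ N) * (volume A * volume B * volume C) ^ ((2 : ℝ) / 3))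
    {N : ℕ} {A : Set (Fin N → ℝ)} (hA : Convex ℝ A) (hc : IsCompact A)
    {r : ℝ} (hr : 1 ≤ r) (hq : HasCube r A) (w : Fin N → ℤ) :
    (({q : (Fin N → ℤ) × (Fin N → ℤ) | q.1 ∈ zpts A ∧ q.2 ∈ zpts A ∧ q.1 + q.2 + w ∈ zpts A}).ncard
      : ℝ) ≤ ρ ^ N * (1 + 2 / r) ^ (2 * N) * (volume A).toReal ^ 2 := by
  sorry

/-! ## UNION -/

/-- MODULE Union (file Union.lean) -/
theorem union_bound {N p t₀ : ℕ} [Fact p.Prime] {ρ : ℝ} (hρ : 0 < ρ) {S : Finset (Fin N → ℤ)}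
    (hS : GoodSet N S p t₀ ρ) (ht₀ : 2 ≤ t₀) (s : ℕ) (hs : s + 1 < p) :
    (badTuples (red p) S s : ℝ) ≤
      (3 ^ s * (8 * ρ ^ N)
        + ∑ t ∈ Finset.Icc 2 t₀, ((3 * (t : ℝ)) ^ (2 * s) * (8 / (t : ℝ) ^ N))
        + (p : ℝ) ^ s * (8 / (t₀ : ℝ) ^ N)) * (S.card : ℝ) ^ s := by
  sorry

/-! ## BONF -/

/-- MODULE FpRank (file FpRank.lean): solutions of a linear system for an independent set. -/
theorem card_solutions {α : Type*} {N d p : ℕ} [Fact p.Prime] (v : α → Fin N → ZMod p)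
    (J : Finset α) (hJ : Indep v J) :
    (({q : Matrix (Fin d) (Fin N) (ZMod p) × (Fin d → ZMod p) |
      ∀ z ∈ J, q.1.mulVec (v z) = q.2}).ncard : ℝ) = (p : ℝ) ^ (d * (N + 1)) / (p : ℝ) ^ (d * J.card) := by
  sorry

/-- MODULE Bonf (file Bonf.lean): matroid Bonferroni inequality. -/
theorem bonf {α : Type*} {N d p m : ℕ} [Fact p.Prime] (v : α → Fin N → ZMod p)
    (S : Finset α) (hm : Even m) (hm0 : 0 < m) :
    (uncCount d v (S : Set α) : ℝ) / (p : ℝ) ^ (d * (N + 1)) ≤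
      ∑ j ∈ Finset.range (m + 1), (-1 : ℝ) ^ j * (indepCount v S j : ℝ) / (p : ℝ) ^ (d * j)
      + ∑ s ∈ Finset.range (2 * m), (2 : ℝ) ^ s * (extCount v S s : ℝ) / (p : ℝ) ^ (d * s) := by
  sorry

/-- MODULE StepFin (file StepFin.lean) -/
theorem stepA_finite {α : Type*} {N d p m : ℕ} [Fact p.Prime] (v : α → Fin N → ZMod p)
    (S : Finset α) (hS : S.Nonempty) (hinj : Set.InjOn v (S : Set α)) (hm : Even m) (hm0 : 0 < m)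
    (b : ℝ) (hb : 0 ≤ b) (hbad : ∀ s < 2 * m, (badTuples v S s : ℝ) ≤ b * (S.card : ℝ) ^ s)
    (D : ℝ) (hD : D = (S.card : ℝ) / (p : ℝ) ^ d) :
    (uncCount d v (S : Set α) : ℝ) / (p : ℝ) ^ (d * (N + 1)) ≤
      Real.exp (-D) + D ^ (m + 1) / (m + 1).factorial
        + Real.exp D * (m * b + (m : ℝ) ^ 2 / S.card) + Real.exp (2 * D) * b := by
  sorry

/-- MODULE StepGood (file StepGood.lean): Step A for a good set (numerics). -/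
theorem stepA_good {ρ : ℝ} (hρ0 : 0 < ρ) (hρ1 : ρ < 1) :
    ∃ c₁ : ℝ, 0 < c₁ ∧ ∃ N₀ : ℕ, ∀ (d N p t₀ : ℕ) [Fact p.Prime] (S : Finset (Fin N → ℤ)),
      N = 4 * d → N₀ ≤ N → N ^ 40 ≤ p → p ≤ 2 * N ^ 40 → N ≤ t₀ →
      GoodSet N S p t₀ ρ → (S.card : ℝ) ≤ c₁ * N * (p : ℝ) ^ d → (N : ℝ) ^ N ≤ S.card →
      (uncCount d (red p) (S : Set (Fin N → ℤ)) : ℝ) / (p : ℝ) ^ (d * (N + 1))
        ≤ 3 * Real.exp (-((S.card : ℝ) / (p : ℝ) ^ d)) := by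
  sorry

/-- MODULE StepBody (file StepBody.lean): Step A for a convex body. -/
theorem step_body : ∃ c₁ : ℝ, 0 < c₁ ∧ ∃ N₀ : ℕ, ∀ (d N p : ℕ) [Fact p.Prime],
    N = 4 * d → N₀ ≤ N → N ^ 40 ≤ p → p ≤ 2 * N ^ 40 →
    ∀ (A : Set (Fin N → ℝ)) (V r R : ℝ), Convex ℝ A → IsCompact A → HasCube r A →
      (∀ x ∈ A, ∀ x' ∈ A, ∀ i, |x i - x' i| ≤ R) → 0 < R → (N : ℝ) ^ 8 ≤ r → 16 * R ^ 2 < p →
      (R / (N : ℝ) ^ 3) ^ N ≤ V → V ≤ (volume A).toReal → V ≤ c₁ * N * (p : ℝ) ^ d →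
      (uncCount d (red p) (zpts A) : ℝ) / (p : ℝ) ^ (d * (N + 1))
        ≤ 4 * Real.exp (-(V / (p : ℝ) ^ d)) := by
  sorry

/-! ## DOUBLE -/

/-- MODULE Double (file Double.lean): deterministic dimension-lifting doubling. -/
theorem doubling {G : Type*} [AddCommGroup G] [Fintype G] [DecidableEq G] (T M : ℕ) (hM : 0 < M)
    (U : (Fin T → ℤ) → Finset G)
    (h : ∀ y : Fin T → ℤ, (∀ i, 0 ≤ y i ∧ y i < M) →
      (((2 * M : ℕ) : ℝ) ^ T) ^ (2 ^ T) *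
        (∏ v : Fin T → Fin 2, ((U (fun i => y i - M * (v i : ℕ))).card : ℝ) / Fintype.card G)
          * Fintype.card G < 1) :
    ∃ a : Fin T → G, ∀ y : Fin T → ℤ, (∀ i, 0 ≤ y i ∧ y i < M) → ∀ c : G,
      ∃ v : Fin T → Fin 2, c - ∑ i, ((v i : ℕ) : ℤ) • a i ∉ U (fun i => y i - M * (v i : ℕ)) := by
  sorry

/-! ## MARGINALS -/

/-- MODULE GaussPair (file GaussPair.lean) -/
theorem gauss_pair {n : ℕ} (x x' : Fin n → ℝ) (ρ a b r : ℝ) (hρ0 : 0 ≤ ρ) (hρ : ρ ≤ 1 / 2)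
    (hr : 0 < r) (hx : r ^ 2 ≤ x ⬝ᵥ x) (hx' : r ^ 2 ≤ x' ⬝ᵥ x')
    (hxx : |x ⬝ᵥ x'| ≤ ρ * √(x ⬝ᵥ x) * √(x' ⬝ᵥ x')) (ha : -4 ≤ a) (hb : b ≤ 4) (hab : a < b) :
    gam n {g | (a * r ≤ g ⬝ᵥ x ∧ g ⬝ᵥ x ≤ b * r) ∧ (a * r ≤ g ⬝ᵥ x' ∧ g ⬝ᵥ x' ≤ b * r)} ≤
      ENNReal.ofReal (Real.exp (20 * ρ)) * gam n {g | a * r ≤ g ⬝ᵥ x ∧ g ⬝ᵥ x ≤ b * r}
        * gam n {g | a * r ≤ g ⬝ᵥ x' ∧ g ⬝ᵥ x' ≤ b * r} := by
  sorry

theorem gauss_single {n : ℕ} (x : Fin n → ℝ) (η a b r : ℝ) (hη : 0 < η)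
    (hr : 0 < r) (hx : r ^ 2 ≤ x ⬝ᵥ x) (hx1 : x ⬝ᵥ x ≤ ((1 + η) * r) ^ 2) (hab : a < b) :
    ENNReal.ofReal (((1 + η) * √(2 * Real.pi))⁻¹ * (b - a) * Real.exp (-(max (a ^ 2) (b ^ 2)) / 2)) ≤
      gam n {g | a * r ≤ g ⬝ᵥ x ∧ g ⬝ᵥ x ≤ b * r} := by
  sorry

/-- MODULE Iso (file Iso.lean): isotropic position. -/
theorem isotropic {n : ℕ} (K : Set (Fin n → ℝ)) (hc : Convex ℝ K) (hK : IsCompact K)
    (hi : (interior K).Nonempty) :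
    ∃ A : (Fin n → ℝ) ≃ₗ[ℝ] (Fin n → ℝ), ∀ i j, ∫ x in A '' K, x i * x j =
      if i = j then (volume (A '' K)).toReal else 0 := by
  sorry

/-- MODULE Radial (file Radial.lean) -/
theorem radial (η : ℝ) (hη : 0 < η) : ∃ c : ℝ, 0 < c ∧ ∀ (n : ℕ) (K : Set (Fin n → ℝ)), 1 ≤ n →
    Convex ℝ K → IsCompact K → 0 < volume K →
    (∫ x in K, x ⬝ᵥ x = n * (volume K).toReal) →
    ∃ r : ℝ, √n / 20 ≤ r ∧ c * (volume K).toReal ≤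
      (volume {x | x ∈ K ∧ r ^ 2 ≤ x ⬝ᵥ x ∧ x ⬝ᵥ x ≤ ((1 + η) * r) ^ 2}).toReal := by
  sorry

/-- MODULE ExistsG (file ExistsG.lean) : second moment method. -/
theorem exists_G (η : ℝ) (hη : 0 < η) (hη1 : η ≤ 1) : ∃ c : ℝ, 0 < c ∧ ∃ n₀ : ℕ, ∀ (n T : ℕ),
    n₀ ≤ n → 0 < T → (T : ℝ) ^ 2 ≤ Real.log n → ∀ (K : Set (Fin n → ℝ)),
    Convex ℝ K → IsCompact K → 0 < volume K →
    (∀ i j, ∫ x in K, x i * x j = if i = j then (volume K).toReal else 0) →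
    ∃ G : (Fin n → ℝ) →ₗ[ℝ] (Fin T → ℝ), ∀ k : Fin T → ℤ, (∀ i, -(8 * (T : ℤ)) ≤ k i ∧ k i < 8 * T) →
      c * (((1 + η) * √(2 * Real.pi))⁻¹) ^ T * (1 / (2 * (T : ℝ))) ^ T *
        Real.exp (-(∑ i, max (((k i : ℝ) / (2 * T)) ^ 2) ((((k i : ℝ) + 1) / (2 * T)) ^ 2)) / 2)
        * (volume K).toReal ≤
      (volume {x | x ∈ K ∧ ∀ i, (k i : ℝ) / (2 * T) ≤ G x i ∧ G x i ≤ ((k i : ℝ) + 1) / (2 * T)}).toReal := by
  sorry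

/-- MODULE SecQC (file SecQC.lean): quasi-concavity of section volumes (from Prekopa-Leindler
`Vale.P226.PL.prekopa_leindler` and compactness). -/
theorem section_quasiconcave {N T : ℕ} (Q : Set ((Fin N → ℝ) × (Fin T → ℝ))) (hQ : Convex ℝ Q)
    (hc : IsCompact Q) (c : ℝ≥0∞) : Convex ℝ {y : Fin T → ℝ | c ≤ volume (sec Q y)} := by
  sorry

/-- MODULE Hull (file Hull.lean) -/
theorem mem_convexHull_of_near {T : ℕ} (hT : 0 < T) (y : Fin T → ℝ) (Z : Set (Fin T → ℝ))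
    (h : ∀ (j : Fin T) (e : ℝ), (e = 1 ∨ e = -1) →
      ∃ z ∈ Z, ∀ i, |z i - (y i + if i = j then e else 0)| ≤ 1 / (2 * T)) :
    y ∈ convexHull ℝ Z := by
  sorry

/-- MODULE Marginal (file Marginal.lean) -/
theorem marginal (η : ℝ) (hη : 0 < η) (hη1 : η ≤ 1) : ∃ c : ℝ, 0 < c ∧ ∃ n₀ : ℕ, ∀ (n N T : ℕ),
    n = N + T → n₀ ≤ n → 0 < T → (T : ℝ) ^ 2 ≤ Real.log n → ∀ (K : Set (Fin n → ℝ)),
    Convex ℝ K → IsCompact K → (interior K).Nonempty →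
    ∃ L : (Fin n → ℝ) ≃ₗ[ℝ] ((Fin N → ℝ) × (Fin T → ℝ)), ∀ y : Fin T → ℝ, (∀ i, |y i| ≤ 3) →
      c * (((1 + η) * √(2 * Real.pi))⁻¹) ^ T * Real.exp (-(∑ i, y i ^ 2) / 2)
        * (volume (L '' K)).toReal ≤ (volume (sec (L '' K) y)).toReal := by
  sorry

/-- MODULE Simplex (file Simplex.lean): affine position of a convex body. -/
theorem simplex_position {N : ℕ} (A : Set (Fin N → ℝ)) (hA : Convex ℝ A) (hc : IsCompact A)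
    (hv : 0 < volume A) :
    ∃ (P : (Fin N → ℝ) ≃ₗ[ℝ] (Fin N → ℝ)) (b : Fin N → ℝ),
      (0 : Fin N → ℝ) ∈ (fun x => P x + b) '' A ∧
      (∀ i, (Pi.single i 1 : Fin N → ℝ) ∈ (fun x => P x + b) '' A) ∧
      (∀ x ∈ (fun x => P x + b) '' A, ∀ i, |x i| ≤ 1) := by
  sorry

/-- MODULE Position (file Position.lean) -/
theorem good_position (η : ℝ) (hη : 0 < η) (hη1 : η ≤ 1) : ∃ c : ℝ, 0 < c ∧ ∃ n₀ : ℕ,
    ∀ (n N T : ℕ), n = N + T → n₀ ≤ n → 0 < N → 0 < T → (T : ℝ) ^ 2 ≤ Real.log n →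
    ∀ (K : Set (Fin n → ℝ)), Convex ℝ K → IsCompact K → (interior K).Nonempty →
    ∃ (L : (Fin n → ℝ) ≃ₗ[ℝ] ((Fin N → ℝ) × (Fin T → ℝ))) (x₀ : (Fin N → ℝ) × (Fin T → ℝ))
      (Q : Set ((Fin N → ℝ) × (Fin T → ℝ))), Q = (fun x => L x + x₀) '' K ∧
      ((0, 0) ∈ Q ∧ (∀ i, ((Pi.single i 1 : Fin N → ℝ), (0 : Fin T → ℝ)) ∈ Q) ∧
        (∀ j, ((0 : Fin N → ℝ), (Pi.single j 1 : Fin T → ℝ)) ∈ Q)) ∧
      (∀ y : Fin T → ℝ, (∀ i, |y i| ≤ 11 / 5) → HasCube (1 / (4 * N)) (sec Q y) ∧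
        (∀ x ∈ sec Q y, ∀ x' ∈ sec Q y, ∀ i, |x i - x' i| ≤ 4)) ∧
      (∀ y : Fin T → ℝ, (∀ i, |y i| ≤ 3) →
        c * (((1 + η) * √(2 * Real.pi))⁻¹) ^ T * Real.exp (-(∑ i, y i ^ 2) / 2)
          * (volume Q).toReal ≤ (volume (sec Q y)).toReal) := by
  sorry

/-! ## NUM -/

/-- MODULE NumPhi (file NumPhi.lean): the one-dimensional inequality. -/
theorem phi_min (y : ℝ) (h0 : 0 ≤ y) (h1 : y ≤ 11 / 5) :
    (1087 : ℝ) / 1000 ≤ Real.exp (-(y ^ 2) / 2) + Real.exp (-((y - 11 / 5) ^ 2) / 2) := by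
  sorry

/-- exponent numerics: with `x = 1.001 * √(2π) / 2.2` and `y = 1.087`: `x ≤ y^(8/5)`. -/
theorem exponent_num : (1001 / 1000 : ℝ) * √(2 * Real.pi) / (11 / 5) ≤ (1087 / 1000 : ℝ) ^ ((8 : ℝ) / 5) := by
  sorry

/-! ## LATTICE -/

/-- MODULE LatCover (file LatCover.lean): from the discrete covering to a lattice covering. -/
theorem lattice_cover {n N T d p M : ℕ} [Fact p.Prime] (hn : n = N + T) (hM : 0 < M)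
    (K : Set (Fin n → ℝ)) (L : (Fin n → ℝ) ≃ₗ[ℝ] ((Fin N → ℝ) × (Fin T → ℝ)))
    (x₀ : (Fin N → ℝ) × (Fin T → ℝ)) (Q : Set ((Fin N → ℝ) × (Fin T → ℝ)))
    (hQ : Q = (fun x => L x + x₀) '' K) (l : ℝ) (hl : 0 < l)
    (W : Matrix (Fin d) (Fin N) (ZMod p)) (a : Fin T → Fin d → ZMod p)
    (hcov : ∀ c : Fin d → ZMod p, ∀ y : Fin T → ℤ, (∀ i, 0 ≤ y i ∧ y i < M) →
      ∃ v : Fin T → ℤ, ∃ z : Fin N → ℤ, W.mulVec (red p z) + ∑ i, v i • a i = c ∧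
        ∀ (u : Fin N → ℝ) (u' : Fin T → ℝ), (∀ i, 0 ≤ u i ∧ u i ≤ 1) → (∀ i, 0 ≤ u' i ∧ u' i ≤ 1) →
          (((fun i => (z i : ℝ) + u i), (fun i => ((y i - M * v i : ℤ) : ℝ) + u' i)) :
            (Fin N → ℝ) × (Fin T → ℝ)) ∈ l • Q) :
    ∃ (Λ : Submodule ℤ (Fin n → ℝ)) (_ : DiscreteTopology Λ) (_ : IsZLattice ℝ Λ),
      K + (Λ : Set (Fin n → ℝ)) = Set.univ ∧
      (volume K).toReal / ZLattice.covolume Λ = l ^ n * (volume Q).toReal / (M ^ T * p ^ d) := by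
  sorry

/-! ## MAIN -/

theorem main_statement : ∃ C : ℝ, 0 < C ∧ ∃ n₀ : ℕ, ∀ n : ℕ, n₀ ≤ n → ∀ K : Set (Fin n → ℝ), Convex ℝ K →
    IsCompact K → (interior K).Nonempty →
    thetaL K ≤ C * n * (Real.log n) ^ ((8 : ℝ) / 5) := by
  sorry

end Vale.P230
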